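import Vale.Agent.Lib.P090.Graph

/-!
# The chain lemma: coupled walks of two partial graphs over a base graph
-/

set_option linter.unusedSectionVars false

namespace Vale.Agent.Lib.P090

variable {C : Type} [DecidableEq C]

/-- A partial graph over the colored graph `B`: moves are involutions, only some of the moves
are allowed, and the allowed ones project to edges of `B`. -/
structure Reader (B : CG C) where
  S : Type
  ok : S → C → Prop
  mv : C → S → S
  pr : S → B.V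
  ok_mv : ∀ {x c}, ok x c → ok (mv c x) c
  mv_mv : ∀ c x, mv c (mv c x) = x
  pr_mv : ∀ {x c}, ok x c → pr (mv c x) = B.act c (pr x)

variable {B : CG C}

theorem reads_pushRed (R : Reader B) {x : R.S} {P : List C} {c : C}
    (h : Reads R.ok R.mv x P) (hc : R.ok (walk R.mv x P) c) :
    Reads R.ok R.mv x (pushRed P c) := by
  rcases pushRed_cases P c with h1 | h1
  · rw [h1, reads_append]
    exact ⟨h, hc, trivial⟩
  · rw [h1, reads_append] at h
    exact h.1

/-- Two points of `B` are linked by a short reduced word. -/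
def Vld (B : CG C) (r : ℕ) (a b : B.V) : Prop :=
  ∃ ρ : List C, Red ρ ∧ ρ.length < 2 * r ∧ walk B.act a ρ = b

/-- The step relation on pairs of points of two partial graphs. -/
def PStep (Z X : Reader B) (r : ℕ) (p p' : Z.S × X.S) : Prop :=
  Vld B r (Z.pr p.1) (X.pr p.2) ∧ Vld B r (Z.pr p'.1) (X.pr p'.2) ∧
    ((∃ c, Z.ok p.1 c ∧ p' = (Z.mv c p.1, p.2)) ∨ (∃ d, X.ok p.2 d ∧ p' = (p.1, X.mv d p.2)))

theorem PStep.symm {Z X : Reader B} {r : ℕ} {p p' : Z.S × X.S} (h : PStep Z X r p p') :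
    PStep Z X r p' p := by
  obtain ⟨z, x⟩ := p
  obtain ⟨h1, h2, h3⟩ := h
  refine ⟨h2, h1, ?_⟩
  rcases h3 with ⟨c, hc, rfl⟩ | ⟨d, hd, rfl⟩
  · exact Or.inl ⟨c, Z.ok_mv hc, by simp [Z.mv_mv]⟩
  · exact Or.inr ⟨d, X.ok_mv hd, by simp [X.mv_mv]⟩

/-- The invariant along coupled walks. -/
def CInv (Z X : Reader B) (r : ℕ) (z0 : Z.S) (x0 : X.S) (ρ0 : List C) (p : Z.S × X.S) : Prop :=
  ∃ P Q ρ : List C, Red P ∧ Reads Z.ok Z.mv z0 P ∧ walk Z.mv z0 P = p.1 ∧
    Red Q ∧ Reads X.ok X.mv x0 Q ∧ walk X.mv x0 Q = p.2 ∧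
    Red ρ ∧ ρ.length < 2 * r ∧ walk B.act (Z.pr p.1) ρ = X.pr p.2 ∧
    nf (P ++ ρ) = nf (ρ0 ++ Q)

theorem CInv.step {Z X : Reader B} {r : ℕ} (hB : Gir B (4 * r)) {z0 : Z.S} {x0 : X.S}
    {ρ0 : List C} {p p' : Z.S × X.S} (h : CInv Z X r z0 x0 ρ0 p) (hs : PStep Z X r p p') :
    CInv Z X r z0 x0 ρ0 p' := by
  obtain ⟨P, Q, ρ, hP, hPr, hPw, hQ, hQr, hQw, hρ, hρl, hρw, heq⟩ := h
  obtain ⟨-, ⟨ρ2, hρ2, hρ2l, hρ2w⟩, hmove⟩ := hs
  rcases hmove with ⟨c, hc, rfl⟩ | ⟨d, hd, rfl⟩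
  · -- a move of the first point
    have hprz : Z.pr (Z.mv c p.1) = B.act c (Z.pr p.1) := Z.pr_mv hc
    have hw1 : walk B.act (Z.pr (Z.mv c p.1)) (redCons c ρ) = X.pr p.2 := by
      rw [walk_redCons B.act_act, walk_cons, hprz, B.act_act]
      exact hρw
    have huniq : redCons c ρ = ρ2 := by
      refine word_unique hB (red_redCons c hρ) hρ2 (hw1.trans hρ2w.symm) ?_
      have := length_redCons_le c ρ
      omega
    refine ⟨pushRed P c, Q, redCons c ρ, red_pushRed hP c, ?_, ?_, hQ, hQr, hQw,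
      red_redCons c hρ, ?_, hw1, ?_⟩
    · exact reads_pushRed Z hPr (by rw [hPw]; exact hc)
    · rw [walk_pushRed Z.mv_mv, hPw]
    · rw [huniq]; exact hρ2l
    · rw [nf_pushRed_redCons hρ]; exact heq
  · -- a move of the second point
    have hprx : X.pr (X.mv d p.2) = B.act d (X.pr p.2) := X.pr_mv hd
    have hw1 : walk B.act (Z.pr p.1) (pushRed ρ d) = X.pr (X.mv d p.2) := by
      rw [walk_pushRed B.act_act, hρw, hprx]
    have huniq : pushRed ρ d = ρ2 := by
      refine word_unique hB (red_pushRed hρ d) hρ2 (hw1.trans hρ2w.symm) ?_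
      have := length_pushRed_le ρ d
      omega
    refine ⟨P, pushRed Q d, pushRed ρ d, hP, hPr, hPw, red_pushRed hQ d, ?_, ?_,
      red_pushRed hρ d, ?_, hw1, ?_⟩
    · exact reads_pushRed X hQr (by rw [hQw]; exact hd)
    · rw [walk_pushRed X.mv_mv, hQw]
    · rw [huniq]; exact hρ2l
    · exact nf_push_push heq d

theorem CInv.eqv {Z X : Reader B} {r : ℕ} (hB : Gir B (4 * r)) {z0 : Z.S} {x0 : X.S}
    {ρ0 : List C} {p p' : Z.S × X.S} (hp : Relation.EqvGen (PStep Z X r) p p') :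
    CInv Z X r z0 x0 ρ0 p ↔ CInv Z X r z0 x0 ρ0 p' := by
  induction hp with
  | rel a b h => exact ⟨fun ha => ha.step hB h, fun hb => hb.step hB h.symm⟩
  | refl a => exact Iff.rfl
  | symm a b _ ih => exact ih.symm
  | trans a b c _ _ ih1 ih2 => exact ih1.trans ih2

/-- No reduced word of length `ℓ` can be read in both partial graphs. -/
def Avoid (Z X : Reader B) (ℓ : ℕ) : Prop :=
  ∀ (z : Z.S) (x : X.S) (W : List C), W.length = ℓ → Red W →
    Reads Z.ok Z.mv z W → Reads X.ok X.mv x W → False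

/-- **Chain lemma.** -/
theorem chain_bound {Z X : Reader B} {r ℓ : ℕ} (hB : Gir B (4 * r)) (hAv : Avoid Z X ℓ)
    {z0 : Z.S} {x0 : X.S} (hv : Vld B r (Z.pr z0) (X.pr x0)) {p : Z.S × X.S}
    (hp : Relation.EqvGen (PStep Z X r) (z0, x0) p) :
    ∃ P : List C, Red P ∧ walk Z.mv z0 P = p.1 ∧ P.length < ℓ + 4 * r := by
  obtain ⟨ρ0, hρ0, hρ0l, hρ0w⟩ := hv
  have hinit : CInv Z X r z0 x0 ρ0 (z0, x0) :=
    ⟨[], [], ρ0, List.isChain_nil, trivial, rfl, List.isChain_nil, trivial, rfl, hρ0, hρ0l, hρ0w,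
      by simp⟩
  obtain ⟨P, Q, ρ, hP, hPr, hPw, hQ, hQr, hQw, hρ, hρl, hρw, heq⟩ := (CInv.eqv hB hp).mp hinit
  refine ⟨P, hP, hPw, ?_⟩
  by_contra hlong
  have hlong' : ℓ + 4 * r ≤ P.length := not_lt.mp hlong
  obtain ⟨P1, e1, ρ1, hP1, hρ1, hnf1⟩ := cancel_lemma hP hρ
  obtain ⟨R1, e2, Q1, hR1, hQ1, hnf2⟩ := cancel_lemma hρ0 hQ
  have hmid : P1 ++ ρ1 = R1 ++ Q1 := by rw [← hnf1, ← hnf2, heq]
  have hle1 : e1.length ≤ ρ.length := by rw [hρ1]; simp
  have hle2 : R1.length ≤ ρ0.length := by rw [hR1]; simp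
  have hlenP : P.length = P1.length + e1.length := by rw [hP1]; simp
  rcases List.append_eq_append_iff.mp hmid with ⟨a', h1, -⟩ | ⟨c', h1, h2⟩
  · have : R1.length = P1.length + a'.length := by rw [h1]; simp
    omega
  · have hc' : P1.length = R1.length + c'.length := by rw [h1]; simp
    have hc'l : ℓ ≤ c'.length := by omega
    -- the common factor
    have hsplit : c' = c'.take ℓ ++ c'.drop ℓ := (List.take_append_drop ℓ c').symm
    set W := c'.take ℓ with hW
    set T := c'.drop ℓ with hT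
    have hWl : W.length = ℓ := by rw [hW, List.length_take]; omega
    have hPeq : P = R1 ++ (W ++ (T ++ e1)) := by
      rw [hP1, h1, hsplit]; simp
    have hQeq : Q = e2.reverse ++ (W ++ (T ++ ρ1)) := by
      rw [hQ1, h2, hsplit]; simp
    have hWred : Red W := by
      have h3 : Red (R1 ++ (W ++ (T ++ e1))) := hPeq ▸ hP
      exact (List.IsChain.right_of_append h3).left_of_append
    have hZr : Reads Z.ok Z.mv (walk Z.mv z0 R1) W := by
      rw [hPeq, reads_append, reads_append] at hPr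
      exact hPr.2.1
    have hXr : Reads X.ok X.mv (walk X.mv x0 e2.reverse) W := by
      rw [hQeq, reads_append, reads_append] at hQr
      exact hQr.2.1
    exact hAv _ _ W hWl hWred hZr hXr

end Vale.Agent.Lib.P090
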