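import Vale.Agent.Lib.P090.Graph

/-!
# A flow proof of the Cheeger inequality on forests
-/

set_option linter.unusedSectionVars false

namespace Vale.Agent.Lib.P090

open Finset

section Flow

variable {Z C : Type} [Fintype Z] [Fintype C]

open Classical in
/-- The total variation of a function along kept edges. -/
noncomputable def keptTV (act : C → Z → Z) (K : Z → C → Prop) (f : Z → ℝ) : ℝ :=
  ∑ z, ∑ c, if K z c then |f z - f (act c z)| else 0

open Classical in
theorem flow_cheeger (act : C → Z → Z) (hinv : ∀ c z, act c (act c z) = z) (K : Z → C → Prop)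
    (hK : ∀ z c, K z c → K (act c z) c) (U : Set Z) (h : Z → ℕ)
    (hdeg : ∀ u ∈ U, 3 ≤ (univ.filter (K u)).card)
    (hU : ∀ u ∈ U, ∃ c0, ∀ c, K u c → c ≠ c0 → h u < h (act c u))
    (f : Z → ℝ) (hf0 : ∀ z, 0 ≤ f z) (hfU : ∀ z, z ∉ U → f z = 0) :
    2 * ∑ z, f z ≤ keptTV act K f := by
  let ψ : Z → C → ℝ := fun z c =>
    if h z < h (act c z) then 1 else if h (act c z) < h z then -1 else 0
  have ψabs : ∀ z c, |ψ z c| ≤ 1 := by
    intro z c
    simp only [ψ]
    split_ifs <;> simp
  have ψanti : ∀ z c, ψ (act c z) c = - ψ z c := by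
    intro z c
    simp only [ψ, hinv]
    by_cases h1 : h z < h (act c z)
    · have h2 : ¬ h (act c z) < h z := by omega
      simp [h1, h2]
    · by_cases h2 : h (act c z) < h z
      · simp [h1, h2]
      · simp [h1, h2]
  have hKiff : ∀ z c, K (act c z) c ↔ K z c := fun z c =>
    ⟨fun hk => by have := hK _ _ hk; rwa [hinv] at this, hK z c⟩
  -- the pairing
  let A : ℝ := ∑ z, ∑ c, if K z c then ψ z c * f z else 0
  let A' : ℝ := ∑ z, ∑ c, if K z c then ψ z c * f (act c z) else 0
  have h1 : ∑ z, f z ≤ A := by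
    refine sum_le_sum fun z _ => ?_
    by_cases hz : z ∈ U
    · have hS : 1 ≤ ∑ c, if K z c then ψ z c else 0 := by
        obtain ⟨c0, hc0⟩ := hU z hz
        rw [← sum_filter]
        have hb : ∀ c ∈ univ.filter (K z), (1 : ℝ) - (if c = c0 then 2 else 0) ≤ ψ z c := by
          intro c hc
          have hkc := (mem_filter.mp hc).2
          by_cases hcc : c = c0
          · have := abs_le.mp (ψabs z c)
            simp only [hcc, if_true] at this ⊢
            linarith [this.1]
          · have hlt := hc0 c hkc hcc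
            simp [ψ, hcc, hlt]
        refine le_trans ?_ (sum_le_sum hb)
        rw [sum_sub_distrib, sum_ite_eq', sum_const, nsmul_eq_mul, mul_one]
        have hd : (3 : ℝ) ≤ ((univ.filter (K z)).card : ℝ) := by exact_mod_cast hdeg z hz
        split_ifs <;> linarith
      have heq : (∑ c, if K z c then ψ z c * f z else 0) = (∑ c, if K z c then ψ z c else 0) * f z := by
        rw [sum_mul]
        refine sum_congr rfl fun c _ => ?_
        split_ifs <;> simp
      rw [heq]
      nlinarith [hf0 z]
    · rw [hfU z hz]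
      simp
  have h2 : A = - A' := by
    simp only [A, A']
    rw [sum_comm, sum_comm (f := fun z c => if K z c then ψ z c * f (act c z) else 0),
      ← sum_neg_distrib]
    refine sum_congr rfl fun c _ => ?_
    let e : Equiv.Perm Z := (show Function.Involutive (act c) from hinv c).toPerm
    rw [← Equiv.sum_comp e, ← sum_neg_distrib]
    refine sum_congr rfl fun z _ => ?_
    change (if K (act c z) c then ψ (act c z) c * f (act c z) else 0) = _
    by_cases hk : K z c
    · rw [if_pos ((hKiff z c).mpr hk), if_pos hk, ψanti]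
      ring
    · rw [if_neg (fun h' => hk ((hKiff z c).mp h')), if_neg hk, neg_zero]
  have h3 : A - A' ≤ keptTV act K f := by
    simp only [A, A', keptTV]
    rw [← sum_sub_distrib]
    refine sum_le_sum fun z _ => ?_
    rw [← sum_sub_distrib]
    refine sum_le_sum fun c _ => ?_
    by_cases hk : K z c
    · simp only [hk, if_true]
      rw [← mul_sub]
      calc ψ z c * (f z - f (act c z)) ≤ |ψ z c * (f z - f (act c z))| := le_abs_self _
        _ = |ψ z c| * |f z - f (act c z)| := abs_mul _ _
        _ ≤ 1 * |f z - f (act c z)| := mul_le_mul_of_nonneg_right (ψabs z c) (abs_nonneg _)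
        _ = _ := one_mul _
    · simp [hk]
  have h4 : A' = - A := by rw [h2]; ring
  rw [h4] at h3
  linarith

open Classical in
theorem flow_cheeger_abs (act : C → Z → Z) (hinv : ∀ c z, act c (act c z) = z) (K : Z → C → Prop)
    (hK : ∀ z c, K z c → K (act c z) c) (U : Set Z) (h : Z → ℕ)
    (hdeg : ∀ u ∈ U, 3 ≤ (univ.filter (K u)).card)
    (hU : ∀ u ∈ U, ∃ c0, ∀ c, K u c → c ≠ c0 → h u < h (act c u))
    (f : Z → ℝ) (hfU : ∀ z, z ∉ U → f z = 0) :
    2 * ∑ z, |f z| ≤ keptTV act K f := by
  have h1 := flow_cheeger act hinv K hK U h hdeg hU (fun z => |f z|) (fun z => abs_nonneg _)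
    (fun z hz => by simp [hfU z hz])
  refine h1.trans ?_
  refine sum_le_sum fun z _ => sum_le_sum fun c _ => ?_
  split_ifs
  · exact abs_abs_sub_abs_le _ _
  · exact le_rfl

end Flow

section Forest

variable {C : Type} [DecidableEq C] [Fintype C]

open Classical in
/-- **Cheeger inequality on forests.** A function supported on a set of points that can all be
reached from one point by short reduced words has large total variation. -/
theorem forest_cheeger (G : CG C) {W0 : ℕ} (hG : Gir G (2 * W0 + 1)) (K : G.V → C → Prop)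
    (hK : ∀ z c, K z c → K (G.act c z) c) (c1 : C)
    (hdeg : ∀ u, 3 ≤ (univ.filter (K u)).card) (z0 : G.V) (U : Set G.V)
    (hUw : ∀ u ∈ U, ∃ P : List C, Red P ∧ walk G.act z0 P = u ∧ P.length < W0)
    (f : G.V → ℝ) (hfU : ∀ z, z ∉ U → f z = 0) :
    2 * ∑ z, |f z| ≤ keptTV G.act K f := by
  choose ω hω1 hω2 hω3 using hUw
  let h : G.V → ℕ := fun z => if hz : z ∈ U then (ω z hz).length else W0
  refine flow_cheeger_abs G.act G.act_act K hK U h (fun u _ => hdeg u) ?_ f hfU
  intro u hu
  obtain ⟨c0, hc0⟩ := exists_last_letter (ω u hu) c1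
  refine ⟨c0, fun c _ hcc => ?_⟩
  have hpush := hc0 c hcc
  have hh : h u = (ω u hu).length := dif_pos hu
  rw [hh]
  by_cases hu' : G.act c u ∈ U
  · have hh' : h (G.act c u) = (ω _ hu').length := dif_pos hu'
    rw [hh']
    have hr : Red ((ω u hu) ++ [c]) := hpush ▸ red_pushRed (hω1 u hu) c
    have hw : walk G.act z0 ((ω u hu) ++ [c]) = walk G.act z0 (ω _ hu') := by
      rw [walk_append, walk_singleton, hω2 u hu, hω2 _ hu']
    have hlen := hω3 u hu
    have hlen' := hω3 _ hu'
    have huniq := word_unique hG hr (hω1 _ hu') hw (by simp; omega)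
    rw [← huniq]
    simp
  · have hh' : h (G.act c u) = W0 := dif_neg hu'
    rw [hh']
    exact hω3 u hu

end Forest

end Vale.Agent.Lib.P090
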