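import Mathlib

/-!
# Lipschitz-free spaces and the bounded approximation property

Plain definitions used in the statement of the hand-in for P090.
-/

namespace Vale.Agent.Lib.P090

/-- The real vector space of Lipschitz functions `M → ℝ` that vanish at the base point `o`. -/
def lip0Sub (M : Type) [MetricSpace M] (o : M) : Submodule ℝ (M → ℝ) where
  carrier := {f | f o = 0 ∧ ∃ K : ℝ, ∀ x y, |f x - f y| ≤ K * dist x y}
  add_mem' := by
    rintro f g ⟨hf0, K, hK⟩ ⟨hg0, L, hL⟩
    refine ⟨by simp [hf0, hg0], K + L, fun x y => ?_⟩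
    have h1 := hK x y
    have h2 := hL x y
    calc |(f + g) x - (f + g) y| = |(f x - f y) + (g x - g y)| := by
          simp only [Pi.add_apply]; congr 1; ring
      _ ≤ |f x - f y| + |g x - g y| := abs_add_le _ _
      _ ≤ (K + L) * dist x y := by rw [add_mul]; exact add_le_add h1 h2
  zero_mem' := ⟨rfl, 0, fun x y => by simp⟩
  smul_mem' := by
    rintro c f ⟨hf0, K, hK⟩
    refine ⟨by simp [hf0], |c| * K, fun x y => ?_⟩
    have h1 := hK x y
    calc |(c • f) x - (c • f) y| = |c| * |f x - f y| := by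
          simp only [Pi.smul_apply, smul_eq_mul]; rw [← mul_sub, abs_mul]
      _ ≤ |c| * K * dist x y := by
          rw [mul_assoc]; exact mul_le_mul_of_nonneg_left h1 (abs_nonneg c)

/-- The space `Lip₀(M)` of Lipschitz functions vanishing at `o`. -/
def Lip0 (M : Type) [MetricSpace M] (o : M) : Type := ↥(lip0Sub M o)

variable {M : Type} [MetricSpace M] {o : M}

noncomputable instance : AddCommGroup (Lip0 M o) := inferInstanceAs (AddCommGroup ↥(lip0Sub M o))
noncomputable instance : Module ℝ (Lip0 M o) := inferInstanceAs (Module ℝ ↥(lip0Sub M o))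

/-- The underlying function of an element of `Lip₀(M)`. -/
def Lip0.fn (f : Lip0 M o) : M → ℝ := f.1

/-- The set of Lipschitz constants of an element of `Lip₀(M)`. -/
def lipConsts (f : Lip0 M o) : Set ℝ := {K | 0 ≤ K ∧ ∀ x y, |f.fn x - f.fn y| ≤ K * dist x y}

/-- The norm of `Lip₀(M)`: the least Lipschitz constant. -/
noncomputable instance : Norm (Lip0 M o) := ⟨fun f => sInf (lipConsts f)⟩

theorem lipConsts_nonempty (f : Lip0 M o) : (lipConsts f).Nonempty := by
  obtain ⟨-, K, hK⟩ := f.2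
  refine ⟨max K 0, le_max_right _ _, fun x y => (hK x y).trans ?_⟩
  exact mul_le_mul_of_nonneg_right (le_max_left _ _) dist_nonneg

theorem lipConsts_bddBelow (f : Lip0 M o) : BddBelow (lipConsts f) := ⟨0, fun _ h => h.1⟩

theorem Lip0.norm_def (f : Lip0 M o) : ‖f‖ = sInf (lipConsts f) := rfl

theorem Lip0.norm_nonneg' (f : Lip0 M o) : 0 ≤ ‖f‖ :=
  le_csInf (lipConsts_nonempty f) fun _ h => h.1

/-- The norm of `Lip₀(M)` is itself a Lipschitz constant. -/
theorem Lip0.abs_sub_le (f : Lip0 M o) (x y : M) : |f.fn x - f.fn y| ≤ ‖f‖ * dist x y := by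
  rcases eq_or_ne x y with rfl | hxy
  · simp
  have hd : 0 < dist x y := dist_pos.mpr hxy
  rw [← div_le_iff₀ hd]
  refine le_csInf (lipConsts_nonempty f) fun K hK => ?_
  rw [div_le_iff₀ hd]
  exact hK.2 x y

/-- A bound on the norm from a Lipschitz estimate. -/
theorem Lip0.norm_le (f : Lip0 M o) {K : ℝ} (hK0 : 0 ≤ K)
    (hK : ∀ x y, |f.fn x - f.fn y| ≤ K * dist x y) : ‖f‖ ≤ K :=
  csInf_le (lipConsts_bddBelow f) ⟨hK0, hK⟩

theorem Lip0.fn_add (f g : Lip0 M o) (x : M) : (f + g).fn x = f.fn x + g.fn x := rfl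
theorem Lip0.fn_smul (c : ℝ) (f : Lip0 M o) (x : M) : (c • f).fn x = c * f.fn x := rfl
theorem Lip0.fn_neg (f : Lip0 M o) (x : M) : (-f).fn x = - f.fn x := rfl
theorem Lip0.fn_sub (f g : Lip0 M o) (x : M) : (f - g).fn x = f.fn x - g.fn x := rfl
theorem Lip0.fn_zero (x : M) : (0 : Lip0 M o).fn x = 0 := rfl
theorem Lip0.fn_base (f : Lip0 M o) : f.fn o = 0 := f.2.1

theorem Lip0.ext' {f g : Lip0 M o} (h : ∀ x, f.fn x = g.fn x) : f = g :=
  Subtype.ext (funext h)

theorem lip0_normCore : NormedSpace.Core ℝ (Lip0 M o) where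
  norm_nonneg := Lip0.norm_nonneg'
  norm_smul c f := by
    have key : ∀ (c : ℝ) (f : Lip0 M o), ‖c • f‖ ≤ |c| * ‖f‖ := fun c f =>
      Lip0.norm_le _ (mul_nonneg (abs_nonneg c) (Lip0.norm_nonneg' f)) fun x y => by
        rw [Lip0.fn_smul, Lip0.fn_smul, ← mul_sub, abs_mul, mul_assoc]
        exact mul_le_mul_of_nonneg_left (Lip0.abs_sub_le f x y) (abs_nonneg c)
    rw [Real.norm_eq_abs]
    refine le_antisymm (key c f) ?_
    rcases eq_or_ne c 0 with rfl | hc
    · simp only [abs_zero, zero_mul]; exact Lip0.norm_nonneg' _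
    have h := key c⁻¹ (c • f)
    rw [smul_smul, inv_mul_cancel₀ hc, one_smul, abs_inv] at h
    have hc' : 0 < |c| := abs_pos.mpr hc
    rwa [inv_mul_eq_div, le_div_iff₀ hc', mul_comm] at h
  norm_triangle f g :=
    Lip0.norm_le _ (add_nonneg (Lip0.norm_nonneg' f) (Lip0.norm_nonneg' g)) fun x y => by
      have h1 := Lip0.abs_sub_le f x y
      have h2 := Lip0.abs_sub_le g x y
      rw [Lip0.fn_add, Lip0.fn_add, add_mul]
      calc |f.fn x + g.fn x - (f.fn y + g.fn y)| = |(f.fn x - f.fn y) + (g.fn x - g.fn y)| := by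
            congr 1; ring
        _ ≤ |f.fn x - f.fn y| + |g.fn x - g.fn y| := abs_add_le _ _
        _ ≤ _ := add_le_add h1 h2
  norm_eq_zero_iff f := by
    constructor
    · intro h
      refine Lip0.ext' fun x => ?_
      have h1 := Lip0.abs_sub_le f x o
      rw [h, zero_mul, Lip0.fn_base, sub_zero] at h1
      rw [Lip0.fn_zero]
      simpa using h1
    · rintro rfl
      refine le_antisymm (Lip0.norm_le _ le_rfl fun x y => ?_) (Lip0.norm_nonneg' _)
      simp [Lip0.fn_zero]

/-- `Lip₀(M)` with the Lipschitz norm. -/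
noncomputable instance : NormedAddCommGroup (Lip0 M o) := NormedAddCommGroup.ofCore lip0_normCore

noncomputable instance : NormedSpace ℝ (Lip0 M o) := NormedSpace.ofCore lip0_normCore

/-- Evaluation at a point `x` as a linear functional on `Lip₀(M)`. -/
def evalLin (x : M) : Lip0 M o →ₗ[ℝ] ℝ where
  toFun f := f.fn x
  map_add' _ _ := rfl
  map_smul' _ _ := rfl

/-- Evaluation at `x` as a bounded functional on `Lip₀(M)`: the element `δ_x` of the dual. -/
noncomputable def delta (x : M) : StrongDual ℝ (Lip0 M o) :=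
  (evalLin x).mkContinuous (dist x o) fun f => by
    have h := Lip0.abs_sub_le f x o
    rw [Lip0.fn_base, sub_zero] at h
    rw [Real.norm_eq_abs, mul_comm]
    exact h

theorem delta_apply (x : M) (f : Lip0 M o) : delta x f = f.fn x := rfl

/-- The Lipschitz-free space `F(M)`: the closed linear span of the evaluations `δ_x`
in the dual of `Lip₀(M)`. -/
noncomputable def lipFree (M : Type) [MetricSpace M] (o : M) :
    Submodule ℝ (StrongDual ℝ (Lip0 M o)) :=
  (Submodule.span ℝ (Set.range (delta : M → StrongDual ℝ (Lip0 M o)))).topologicalClosure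

/-- The `lam`-bounded approximation property of a real normed space `X`: every compact set can be
uniformly approximated by finite-rank bounded operators of norm at most `lam`. -/
def HasBAP (lam : ℝ) (X : Type) [NormedAddCommGroup X] [NormedSpace ℝ X] : Prop :=
  ∀ C : Set X, IsCompact C → ∀ ε : ℝ, 0 < ε →
    ∃ T : X →L[ℝ] X, FiniteDimensional ℝ (LinearMap.range (T : X →ₗ[ℝ] X)) ∧ ‖T‖ ≤ lam ∧
      ∀ u ∈ C, ‖T u - u‖ < ε

end Vale.Agent.Lib.P090
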