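import Vale.Agent.Lib.P090.Level

/-!
# The assembly: no bounded approximation property
-/

set_option linter.unusedSectionVars false
set_option linter.unusedVariables false

namespace Vale.Agent.Lib.P090

noncomputable section

open Finset

section Words

variable {C : Type} [DecidableEq C] [Fintype C] {B : CG C}

open Classical in
/-- Few words can be read from a point of a partial graph of bounded degree. -/
theorem words_finset (R : Reader B) (hdeg : ∀ x, (univ.filter (R.ok x)).card ≤ 19) (ℓ : ℕ) :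
    ∀ x, ∃ T : Finset (List C), (∀ W, W.length = ℓ → Reads R.ok R.mv x W → W ∈ T) ∧
      T.card ≤ 19 ^ ℓ := by
  induction ℓ with
  | zero =>
    intro x
    refine ⟨{[]}, fun W hW _ => ?_, by simp⟩
    rw [List.length_eq_zero_iff] at hW
    simp [hW]
  | succ ℓ ih =>
    intro x
    choose T hT1 hT2 using ih
    refine ⟨(univ.filter (R.ok x)).biUnion fun c => (T (R.mv c x)).image (c :: ·), ?_, ?_⟩
    · intro W hW hr
      cases W with
      | nil => simp at hW
      | cons c W' =>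
        simp only [List.length_cons, Nat.add_right_cancel_iff] at hW
        refine mem_biUnion.mpr ⟨c, mem_filter.mpr ⟨mem_univ _, hr.1⟩, ?_⟩
        exact mem_image.mpr ⟨W', hT1 _ W' hW hr.2, rfl⟩
    · refine card_biUnion_le.trans ?_
      calc _ ≤ ∑ c ∈ univ.filter (R.ok x), 19 ^ ℓ :=
            sum_le_sum fun c _ => card_image_le.trans (hT2 _)
        _ = (univ.filter (R.ok x)).card * 19 ^ ℓ := by rw [sum_const, smul_eq_mul]
        _ ≤ 19 * 19 ^ ℓ := Nat.mul_le_mul_right _ (hdeg x)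
        _ = 19 ^ (ℓ + 1) := by ring

open Classical in
/-- The finite set of all reduced words of a given length that can be read somewhere. -/
theorem exists_word_set (R : Reader B) [Fintype R.S]
    (hdeg : ∀ x, (univ.filter (R.ok x)).card ≤ 19) (ℓ : ℕ) :
    ∃ W : Finset (List C), (∀ w ∈ W, w.length = ℓ ∧ Red w) ∧
      W.card ≤ Fintype.card R.S * 19 ^ ℓ ∧
      ∀ x w, w.length = ℓ → Red w → Reads R.ok R.mv x w → w ∈ W := by
  choose T hT1 hT2 using words_finset R hdeg ℓ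
  refine ⟨((univ : Finset R.S).biUnion T).filter (fun w => w.length = ℓ ∧ Red w), ?_, ?_, ?_⟩
  · intro w hw
    exact (mem_filter.mp hw).2
  · refine (card_le_card (filter_subset _ _)).trans (card_biUnion_le.trans ?_)
    calc _ ≤ ∑ _x : R.S, 19 ^ ℓ := sum_le_sum fun x _ => hT2 x
      _ = _ := by rw [sum_const, smul_eq_mul, card_univ]
  · intro x w h1 h2 h3
    exact mem_filter.mpr ⟨mem_biUnion.mpr ⟨x, mem_univ _, hT1 x w h1 h3⟩, h1, h2⟩

end Words

theorem nat_numeric (N : ℕ) : (N + 8) * (N + 8) ≤ 2 ^ (N + 6) := by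
  induction N with
  | zero => norm_num
  | succ N ih =>
    have : 2 ^ (N + 1 + 6) = 2 * 2 ^ (N + 6) := by ring
    rw [this]
    nlinarith

theorem count_numeric (N c : ℕ) (hc : c ≤ N * 19 ^ (N + 7)) :
    (((N + 7 + 1) * (c * 2 ^ (N + 7)) : ℕ) : ℝ) * (2 / 152) ^ (N + 7 - 1) ≤ 38 := by
  have h1 : ((N + 7 + 1) * (c * 2 ^ (N + 7)) : ℕ) ≤ (N + 8) * (N * 19 ^ (N + 7) * 2 ^ (N + 7)) :=
    Nat.mul_le_mul_left _ (Nat.mul_le_mul_right _ hc)
  have h2 : (((N + 7 + 1) * (c * 2 ^ (N + 7)) : ℕ) : ℝ) ≤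
      ((N + 8 : ℕ) : ℝ) * ((N : ℝ) * (19 : ℝ) ^ (N + 7) * (2 : ℝ) ^ (N + 7)) := by
    have := Nat.cast_le (α := ℝ).mpr h1
    push_cast at this ⊢
    linarith
  have h3 : (N + 7 - 1) = N + 6 := by omega
  rw [h3]
  have h4 : (0 : ℝ) ≤ (2 / 152) ^ (N + 6) := by positivity
  refine (mul_le_mul_of_nonneg_right h2 h4).trans ?_
  have h5 : ((19 : ℝ) ^ (N + 7) * (2 : ℝ) ^ (N + 7)) * (2 / 152) ^ (N + 6) = 38 * (1 / 2) ^ (N + 6) := by
    rw [← mul_pow]
    have : ((19 : ℝ) * 2) ^ (N + 7) = 38 * 38 ^ (N + 6) := by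
      rw [pow_succ (_ : ℝ) (N + 6)]
      norm_num
      ring
    rw [this, mul_assoc, ← mul_pow]
    norm_num
  have h6 : (((N + 8) * N : ℕ) : ℝ) ≤ (2 : ℝ) ^ (N + 6) := by
    have h7 : (N + 8) * N ≤ 2 ^ (N + 6) :=
      (Nat.mul_le_mul_left _ (by omega)).trans (nat_numeric N)
    exact_mod_cast h7
  have h8 : (0 : ℝ) < (2 : ℝ) ^ (N + 6) := by positivity
  have h9 : ((2 : ℝ)) ^ (N + 6) * (1 / 2) ^ (N + 6) = 1 := by
    rw [← mul_pow]
    norm_num
  calc _ = (((N + 8) * N : ℕ) : ℝ) * (((19 : ℝ) ^ (N + 7) * (2 : ℝ) ^ (N + 7)) * (2 / 152) ^ (N + 6)) := by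
        push_cast
        ring
    _ = (((N + 8) * N : ℕ) : ℝ) * (38 * (1 / 2) ^ (N + 6)) := by rw [h5]
    _ ≤ (2 : ℝ) ^ (N + 6) * (38 * (1 / 2) ^ (N + 6)) :=
        mul_le_mul_of_nonneg_right h6 (by positivity)
    _ = 38 * ((2 : ℝ) ^ (N + 6) * (1 / 2) ^ (N + 6)) := by ring
    _ = 38 := by rw [h9, mul_one]

open Classical in
/-- The degree bound for the special points. -/
theorem sp_deg {n : ℕ} (J : Set (Comp n)) (x : (spReader J).S) :
    (univ.filter ((spReader J).ok x)).card ≤ 19 := by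
  obtain ⟨p, hp⟩ := x
  rcases p with b | ⟨i, v⟩
  · have : univ.filter ((spReader J).ok ⟨Sum.inl b, hp⟩) = ∅ := by
      refine filter_eq_empty_iff.mpr fun c _ => ?_
      exact fun h => h
    rw [this]
    simp
  · exact (i.2.2.2 v).2

/-- **Avoidance**: for any finite set of components there is a component sharing no long word
with them, and of large girth. -/
theorem exists_avoid {n : ℕ} (J : Set (Comp n)) (hfin : Finite {p : Pt n // inSp J p}) :
    ∃ (i0 : Comp n) (ℓ : ℕ), Avoid (compReader i0) (spReader J) ℓ ∧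
      Gir (Gn n i0.1) (2 * (ℓ + 4 * rN n) + 1) := by
  classical
  let _ : Fintype (spReader J).S := Fintype.ofFinite {p : Pt n // inSp J p}
  set N := Fintype.card (spReader J).S with hN
  set ℓ := N + 7 with hℓ
  obtain ⟨W, hW1, hW2, hW3⟩ := exists_word_set (spReader J) (sp_deg J) ℓ
  let k := 2 * (ℓ + 4 * rN n) + 1
  have hg : Gir (Gn n k) (dN n + k + 3) := tower_gir (dN n + k)
  obtain ⟨K, hK, hav⟩ := exists_kept hg (by omega) (ℓ := ℓ) (by omega) (by omega) W hW1
    (count_numeric N W.card hW2)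
  refine ⟨⟨k, ⟨K, hK⟩⟩, ℓ, ?_, ?_⟩
  · intro z x w hw1 hw2 hr1 hr2
    exact hav z w (hW3 x w hw1 hw2 hr2) hr1
  · exact hg.mono (by omega)

/-- The component of a point, if any. -/
def compOf : Mt → Option (Σ n, Comp n)
  | ⟨_, Sum.inl _⟩ => none
  | ⟨m, Sum.inr ⟨i, _⟩⟩ => some ⟨m, i⟩

/-- **The space `Mt` fails the bounded approximation property.** -/
theorem not_bap : ¬ ∃ lam : ℝ, HasBAP lam ↥(lipFree Mt basePt) := by
  classical
  rintro ⟨lam, hlam⟩
  set a := max lam 0 with ha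
  have ha0 : 0 ≤ a := le_max_right _ _
  obtain ⟨n0, hn0⟩ := exists_nat_ge (76 * a)
  let n := n0 + 1
  have hn : 1 ≤ n := by omega
  have hta : 76 * a ≤ mT n := by
    rw [mT_eq]
    have : (n : ℝ) = n0 + 1 := by simp [n]
    rw [this]
    have : (0 : ℝ) ≤ n0 := Nat.cast_nonneg n0
    linarith
  let F : Finset Mt := (univ : Finset (Bn n).V).image fun b => ⟨n, Sum.inl b⟩
  obtain ⟨g, hg1, hg2, hg3⟩ := exists_functionals hlam F
  have hY : Bornology.IsBounded {x : Mt | mLev x = n} := by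
    refine (Metric.isBounded_closedBall (x := basePt) (r := mD n + mD 0)).subset ?_
    intro x hx
    have h1 := dist_mt_bound x basePt
    rw [hx] at h1
    exact h1
  obtain ⟨S, hS⟩ := hg3 _ hY
  let J : Set (Comp n) := (fun i => some (⟨n, i⟩ : Σ n, Comp n)) ⁻¹' (compOf '' (S : Set Mt))
  have hJ : J.Finite := by
    refine (S.finite_toSet.image compOf).preimage ?_
    intro i _ j _ hij
    have h1 := Option.some.inj hij
    simpa using h1
  have hJmem : ∀ (i : Comp n) (v : (Gn n i.1).V), (⟨n, Sum.inr ⟨i, v⟩⟩ : Mt) ∈ S → i ∈ J :=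
    fun i v h => ⟨⟨n, Sum.inr ⟨i, v⟩⟩, h, rfl⟩
  have hfin : Finite {p : Pt n // inSp J p} := by
    have := hJ.to_subtype
    let f : (Bn n).V ⊕ (Σ i : ↥J, (Gn n i.1.1).V) → {p : Pt n // inSp J p} := fun q =>
      match q with
      | Sum.inl b => ⟨Sum.inl b, trivial⟩
      | Sum.inr ⟨i, v⟩ => ⟨Sum.inr ⟨i.1, v⟩, i.2⟩
    refine Finite.of_surjective f ?_
    rintro ⟨p, hp⟩
    rcases p with b | ⟨i, v⟩
    · exact ⟨Sum.inl b, rfl⟩
    · exact ⟨Sum.inr ⟨⟨i, hp⟩, v⟩, rfl⟩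
  obtain ⟨i0, ℓ, hAv, hgir⟩ := exists_avoid J hfin
  refine level_core hn ha0 hta g hg1 ?_ J hfin ?_ i0 ℓ hAv hgir
  · intro b
    exact hg2 _ (mem_image.mpr ⟨b, mem_univ _, rfl⟩)
  · intro x hx h hh1 hh2
    refine hS x hx h fun s hs => ?_
    obtain ⟨m, p⟩ := s
    by_cases hm : m = n
    · subst hm
      refine hh1 p ?_
      rcases p with b | ⟨i, v⟩
      · trivial
      · exact hJmem i v hs
    · exact hh2 m p hm

/-- The space is countable. -/
theorem mt_countable : Countable Mt := inferInstance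

/-- The final statement. -/
theorem exists_uniformly_discrete_not_bap :
    ∃ (M : Type) (_ : MetricSpace M) (o : M), Countable M ∧
      (∃ θ : ℝ, 0 < θ ∧ ∀ x y : M, x ≠ y → θ ≤ dist x y) ∧
        ¬ ∃ lam : ℝ, HasBAP lam ↥(lipFree M o) :=
  ⟨Mt, inferInstance, basePt, mt_countable, ⟨1, one_pos, fun _ _ h => one_le_dist_mt h⟩, not_bap⟩

end

end Vale.Agent.Lib.P090
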