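import Vale.Agent.Lib.P090.Words

/-!
# Finite colored graphs of large girth
-/

set_option linter.unusedSectionVars false

namespace Vale.Agent.Lib.P090

variable {C : Type} [DecidableEq C]

/-- A finite graph whose edges are colored by `C`: each color acts as a fixed point free
involution on the vertices. -/
structure CG (C : Type) where
  V : Type
  fin : Fintype V
  dec : DecidableEq V
  act : C → V → V
  act_act : ∀ c v, act c (act c v) = v
  act_ne : ∀ c v, act c v ≠ v

attribute [instance] CG.fin CG.dec

/-- No nonempty reduced word of length less than `g` fixes a vertex. -/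
def Gir (G : CG C) (g : ℕ) : Prop :=
  ∀ (v : G.V) (w : List C), Red w → w ≠ [] → w.length < g → walk G.act v w ≠ v

theorem Gir.mono {G : CG C} {g g' : ℕ} (h : Gir G g) (hg : g' ≤ g) : Gir G g' :=
  fun v w hr hne hl => h v w hr hne (lt_of_lt_of_le hl hg)

/-- Uniqueness of short reduced words between two vertices. -/
theorem word_unique {G : CG C} {g : ℕ} (h : Gir G g) {a : G.V} {u v : List C}
    (hu : Red u) (hv : Red v) (huv : walk G.act a u = walk G.act a v) (hl : u.length + v.length < g) :
    u = v := by
  obtain ⟨a', e, b', h1, h2, h3⟩ := cancel_lemma (red_reverse hu) hv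
  have hclosed : walk G.act (walk G.act a u) (nf (u.reverse ++ v)) = walk G.act a u := by
    rw [walk_nf G.act_act, walk_append, walk_reverse G.act_act]
    exact huv.symm
  have hlen : (nf (u.reverse ++ v)).length ≤ u.length + v.length := by
    rw [h3]
    have h1' := congrArg List.length h1
    have h2' := congrArg List.length h2
    simp only [List.length_reverse, List.length_append] at h1' h2' ⊢
    omega
  have hnil : nf (u.reverse ++ v) = [] := by
    by_contra hne
    exact h _ _ (red_nf _) hne (lt_of_le_of_lt hlen hl) hclosed
  rw [h3] at hnil
  have ha' : a' = [] := (List.append_eq_nil_iff.mp hnil).1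
  have hb' : b' = [] := (List.append_eq_nil_iff.mp hnil).2
  subst ha' hb'
  simp only [List.nil_append, List.append_nil] at h1 h2
  rw [h2, ← h1, List.reverse_reverse]

section Cover
variable [Fintype C]

/-- The homology cover of a colored graph. -/
abbrev cover (G : CG C) : CG C where
  V := G.V × (G.V × C → ZMod 2)
  fin := inferInstance
  dec := inferInstance
  act c p := (G.act c p.1, p.2 + Pi.single (p.1, c) 1 + Pi.single (G.act c p.1, c) 1)
  act_act c p := by
    obtain ⟨v, φ⟩ := p
    refine Prod.ext (G.act_act c v) ?_
    funext k
    simp only [G.act_act, Pi.add_apply]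
    have h1 : ∀ x : ZMod 2, x + x = 0 := fun x => CharTwo.add_self_eq_zero x
    linear_combination h1 ((Pi.single (v, c) 1 : G.V × C → ZMod 2) k) +
      h1 ((Pi.single (G.act c v, c) 1 : G.V × C → ZMod 2) k)
  act_ne c p h := G.act_ne c p.1 (congrArg Prod.fst h)

theorem cover_run_fst (G : CG C) (p : (cover G).V) (w : List C) :
    (walk (cover G).act p w).1 = walk G.act p.1 w := by
  induction w generalizing p with
  | nil => rfl
  | cons c t ih => exact ih _

/-- If a word does not touch a key then the value at the key does not change. -/
theorem cover_run_untouched (G : CG C) (k : G.V × C) (w : List C) (x : G.V)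
    (φ : G.V × C → ZMod 2)
    (h : ∀ a d b, w = a ++ d :: b → (walk G.act x a, d) ≠ k ∧ (walk G.act x (a ++ [d]), d) ≠ k) :
    (walk (cover G).act (x, φ) w).2 k = φ k := by
  induction w generalizing x φ with
  | nil => rfl
  | cons c t ih =>
    have h0 := h [] c t rfl
    have hstep : ((cover G).act c (x, φ)) =
        (G.act c x, φ + Pi.single (x, c) 1 + Pi.single (G.act c x, c) 1) := rfl
    rw [walk_cons, hstep]
    have := ih (G.act c x) (φ + Pi.single (x, c) 1 + Pi.single (G.act c x, c) 1) (fun a d b hw => by
      have := h (c :: a) d b (by rw [hw]; rfl)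
      exact this)
    refine this.trans ?_
    simp only [Pi.add_apply]
    have h1 : (Pi.single (x, c) 1 : G.V × C → ZMod 2) k = 0 :=
      Pi.single_eq_of_ne (Ne.symm h0.1) _
    have h2 : (Pi.single (G.act c x, c) 1 : G.V × C → ZMod 2) k = 0 :=
      Pi.single_eq_of_ne (Ne.symm h0.2) _
    rw [h1, h2, add_zero, add_zero]

/-- One cover increases the girth by one. -/
theorem cover_gir {G : CG C} {g : ℕ} (h : Gir G g) (hg : 3 ≤ g) : Gir (cover G) (g + 1) := by
  rintro ⟨v, φ⟩ w hr hne hl hclosed
  have hproj : walk G.act v w = v :=
    (cover_run_fst G (v, φ) w).symm.trans (congrArg Prod.fst hclosed)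
  have hge : g ≤ w.length := by
    by_contra hlt
    exact h v w hr hne (by omega) hproj
  have hleng : w.length = g := by omega
  clear hge hl
  cases w with
  | nil => exact hne rfl
  | cons c0 t =>
    have ht : Red t := Red.tail' hr
    have hlt : t.length + 1 = g := by simpa using hleng
    set u1 := G.act c0 v with hu1
    have hv1 : u1 ≠ v := G.act_ne c0 v
    -- the rest of the walk does not touch the key
    have huntouched : ∀ a d b, t = a ++ d :: b →
        (walk G.act u1 a, d) ≠ (v, c0) ∧ (walk G.act u1 (a ++ [d]), d) ≠ (v, c0) := by
      intro a d b hab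
      have hlen : t.length = a.length + b.length + 1 := by
        rw [hab]; simp; omega
      have hred : Red (c0 :: (a ++ d :: b)) := by rw [← hab]; exact hr
      constructor
      · intro heq
        have h1 : walk G.act u1 a = v := congrArg Prod.fst heq
        -- the word `c0 :: a` is closed
        have hr' : Red (c0 :: a) := by
          have : c0 :: (a ++ d :: b) = (c0 :: a) ++ (d :: b) := rfl
          rw [this] at hred
          exact hred.left_of_append
        exact h v (c0 :: a) hr' (by simp) (by simp; omega) h1
      · intro heq
        have h1 : walk G.act u1 (a ++ [d]) = v := congrArg Prod.fst heq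
        have hd : d = c0 := congrArg Prod.snd heq
        subst hd
        cases b with
        | nil =>
          -- word `c0 a c0` closed, so `a` closed at `u1`
          have h2 : walk G.act u1 a = u1 := by
            rw [walk_append, walk_singleton] at h1
            have := congrArg (G.act d) h1
            rwa [G.act_act] at this
          have hane : a ≠ [] := by
            intro ha
            subst ha
            simp at hlen
            omega
          have hra : Red a := by
            have : d :: (a ++ [d]) = (d :: a) ++ [d] := rfl
            rw [this] at hred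
            exact Red.tail' hred.left_of_append
          exact h u1 a hra hane (by simp at hlen; omega) h2
        | cons e b' =>
          have hr' : Red (d :: (a ++ [d])) := by
            have : d :: (a ++ d :: e :: b') = (d :: (a ++ [d])) ++ (e :: b') := by simp
            rw [this] at hred
            exact hred.left_of_append
          exact h v (d :: (a ++ [d])) hr' (by simp) (by simp at hlen ⊢; omega) h1
    have hval := cover_run_untouched G (v, c0) t u1
      (φ + Pi.single (v, c0) 1 + Pi.single (u1, c0) 1) huntouched
    have hstep : ((cover G).act c0 (v, φ)) =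
        (u1, φ + Pi.single (v, c0) 1 + Pi.single (u1, c0) 1) := rfl
    have hfinal : (walk (cover G).act (v, φ) (c0 :: t)).2 (v, c0) = φ (v, c0) := by
      rw [hclosed]
    rw [walk_cons, hstep] at hfinal
    rw [hfinal] at hval
    simp only [Pi.add_apply, Pi.single_eq_same] at hval
    have h2 : (Pi.single (u1, c0) 1 : G.V × C → ZMod 2) (v, c0) = 0 :=
      Pi.single_eq_of_ne (fun h' => hv1 (congrArg Prod.fst h').symm) _
    rw [h2, add_zero] at hval
    have h3 : (1 : ZMod 2) = 0 := by
      have := hval
      linear_combination - this
    exact one_ne_zero h3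

/-- The base graph: the Boolean cube on the colors. -/
abbrev cube : CG C where
  V := C → ZMod 2
  fin := inferInstance
  dec := inferInstance
  act c f := f + Pi.single c 1
  act_act c f := by
    funext k
    simp only [Pi.add_apply]
    have h1 : ∀ x : ZMod 2, x + x = 0 := fun x => CharTwo.add_self_eq_zero x
    linear_combination h1 ((Pi.single c 1 : C → ZMod 2) k)
  act_ne c f h := by
    have h1 : (f + Pi.single c 1 : C → ZMod 2) c = f c := congrFun h c
    simp at h1

theorem cube_gir : Gir (cube : CG C) 3 := by
  intro v w hr hne hl hclosed
  match w, hne, hl, hr, hclosed with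
  | [c], _, _, _, hclosed => exact (cube : CG C).act_ne c v hclosed
  | [c, d], _, _, hr, hclosed =>
    have hcd : c ≠ d := (red_cons_iff.mp hr).1
    have h1 : ((((v : C → ZMod 2) + (Pi.single c 1 : C → ZMod 2) : C → ZMod 2) +
        (Pi.single d 1 : C → ZMod 2) : C → ZMod 2)) c = (v : C → ZMod 2) c := congrFun hclosed c
    simp only [Pi.add_apply, Pi.single_eq_same] at h1
    rw [Pi.single_eq_of_ne hcd] at h1
    simp at h1
  | c :: d :: e :: t, _, hl, _, _ => simp at hl; omega

/-- The tower of covers above a graph. -/
def tower (G0 : CG C) : ℕ → CG C
  | 0 => G0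
  | n + 1 => cover (tower G0 n)

theorem tower_gir (n : ℕ) : Gir (tower (cube : CG C) n) (n + 3) := by
  induction n with
  | zero => exact cube_gir
  | succ n ih => exact cover_gir ih (by omega)

/-- The projection between levels of the tower. -/
def towerProj (G0 : CG C) (n : ℕ) : (k : ℕ) → (tower G0 (n + k)).V → (tower G0 n).V
  | 0, v => v
  | k + 1, v => towerProj G0 n k v.1

theorem towerProj_act (G0 : CG C) (n k : ℕ) (c : C) (v : (tower G0 (n + k)).V) :
    towerProj G0 n k ((tower G0 (n + k)).act c v) = (tower G0 n).act c (towerProj G0 n k v) := by
  induction k with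
  | zero => rfl
  | succ k ih => exact ih _

end Cover

end Vale.Agent.Lib.P090
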