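import Vale.Agent.Lib.P090.Test

/-!
# The contradiction at one level
-/

set_option linter.unusedSectionVars false
set_option linter.unusedVariables false

namespace Vale.Agent.Lib.P090

noncomputable section

open Finset

variable {n : ℕ} {J : Set (Comp n)} {i0 : Comp n}

theorem abs_phiL_le (b c : (Bn n).V) : |phiL n b c| ≤ 1 := by
  rw [abs_of_nonneg (phi_nonneg _ _ _)]
  exact phi_le_one _ _ _

theorem one_div_r_pos (n : ℕ) : 0 < 1 / (rN n : ℝ) := by
  have := rN_real_pos n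
  positivity

theorem one_div_t_pos (n : ℕ) : 0 < 1 / mT n := by
  have := mT_pos n
  positivity

theorem phi_hB (b : (Bn n).V) (p : Pt n) :
    |phiL n b (ptPr p)| ≤ 1 / (rN n : ℝ) * (mD n / 2) := by
  refine (abs_phiL_le _ _).trans ?_
  rw [mD_half]
  have hr := rN_real_pos n
  have ht := mT_pos n
  rw [div_mul_eq_mul_div, le_div_iff₀ hr]
  linarith

theorem phi_hE (b : (Bn n).V) (p : Pt n) (c : Color) (hc : ptOk p c) :
    |phiL n b (ptPr p) - phiL n b (ptPr (ptMv c p))| ≤ 1 / (rN n : ℝ) := by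
  have hpr : ptPr (ptMv c p) = (Bn n).act c (ptPr p) := ptPr_mv hc
  rw [hpr]
  exact phi_lip_right (rN_pos n) _ _ c

theorem phi_hS (b : (Bn n).V) (p : Pt n) :
    |phiL n b (ptPr p) - phiL n b (ptPr (Sum.inl (ptPr p) : Pt n))| ≤ 1 / (rN n : ℝ) * mT n := by
  have : ptPr (Sum.inl (ptPr p) : Pt n) = ptPr p := rfl
  rw [this, sub_self, abs_zero]
  exact mul_nonneg (one_div_r_pos n).le (mT_pos n).le

/-- The bump function as an element of `Lip₀`. -/
def phiEl (hn : 1 ≤ n) (b : (Bn n).V) : Lip0 Mt basePt :=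
  toLip hn (fun p => phiL n b (ptPr p)) (1 / (rN n : ℝ)) (one_div_r_pos n) (phi_hB b) (phi_hE b)
    (phi_hS b)

theorem phiEl_fn (hn : 1 ≤ n) (b : (Bn n).V) :
    (phiEl hn b).fn = lvl n (fun p => phiL n b (ptPr p)) := rfl

theorem phiEl_norm (hn : 1 ≤ n) (b : (Bn n).V) : ‖phiEl hn b‖ ≤ 1 / (rN n : ℝ) :=
  norm_le_of_lvl (phiEl_fn hn b) (one_div_r_pos n) (phi_hB b) (phi_hE b) (phi_hS b)

open Classical in
/-- The part of the bump function off the special points. -/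
def hOff (J : Set (Comp n)) (b : (Bn n).V) (p : Pt n) : ℝ :=
  if inSp J p then 0 else phiL n b (ptPr p)

theorem abs_hOff_le (b : (Bn n).V) (p : Pt n) : |hOff J b p| ≤ 1 := by
  unfold hOff
  split_ifs
  · simp
  · exact abs_phiL_le _ _

theorem hOff_hB (b : (Bn n).V) (p : Pt n) : |hOff J b p| ≤ 1 / mT n * (mD n / 2) := by
  refine (abs_hOff_le b p).trans ?_
  rw [mD_half]
  have hr := rN_real_pos n
  have ht := mT_pos n
  rw [div_mul_eq_mul_div, le_div_iff₀ ht]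
  linarith

theorem hOff_hE (b : (Bn n).V) (p : Pt n) (c : Color) (hc : ptOk p c) :
    |hOff J b p - hOff J b (ptMv c p)| ≤ 1 / mT n := by
  unfold hOff
  by_cases h : inSp J p
  · have h' : inSp J (ptMv c p) := inSp_mv c h
    rw [if_pos h, if_pos h', sub_zero, abs_zero]
    exact (one_div_t_pos n).le
  · have h' : ¬ inSp J (ptMv c p) := fun h2 => h ((inSp_mv_iff c).mp h2)
    rw [if_neg h, if_neg h']
    exact (phi_hE b p c hc).trans (inv_r_le_inv_t n)

theorem hOff_hub (b a : (Bn n).V) : hOff J b (Sum.inl a) = 0 := by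
  unfold hOff
  exact if_pos trivial

theorem hOff_hS (b : (Bn n).V) (p : Pt n) :
    |hOff J b p - hOff J b (Sum.inl (ptPr p))| ≤ 1 / mT n * mT n := by
  rw [hOff_hub, sub_zero, one_div, inv_mul_cancel₀ (mT_pos n).ne']
  exact abs_hOff_le b p

/-- The off part as an element of `Lip₀`. -/
def hEl (hn : 1 ≤ n) (J : Set (Comp n)) (b : (Bn n).V) : Lip0 Mt basePt :=
  toLip hn (hOff J b) (1 / mT n) (one_div_t_pos n) (hOff_hB b) (hOff_hE b) (hOff_hS b)

theorem hEl_fn (hn : 1 ≤ n) (b : (Bn n).V) : (hEl hn J b).fn = lvl n (hOff J b) := rfl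

theorem hEl_norm (hn : 1 ≤ n) (b : (Bn n).V) : ‖hEl hn J b‖ ≤ 1 / mT n :=
  norm_le_of_lvl (hEl_fn hn b) (one_div_t_pos n) (hOff_hB b) (hOff_hE b) (hOff_hS b)

section Main

variable [Fintype (Lab J i0)]

/-- The sum of all test functions is the bump function up to the off part. -/
theorem fEl_one (hn : 1 ≤ n) (z : (Gn n i0.1).V) :
    fEl hn z (fun _ : Lab J i0 => (1 : ℝ)) = phiEl hn (zPr i0 z) - hEl hn J (zPr i0 z) := by
  refine Lip0.ext' fun x => ?_
  rw [fEl_fn, Lip0.fn_sub, phiEl_fn, hEl_fn, lvl_sub]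
  congr 1
  funext p
  by_cases h : inSp J p
  · rw [Fg_of_mem h]
    simp [hOff, h]
  · rw [Fg_of_not_mem h]
    simp [hOff, h]

theorem apply_fEl (hn : 1 ≤ n) (g : StrongDual ℝ (Lip0 Mt basePt)) (z : (Gn n i0.1).V)
    (s : Lab J i0 → ℝ) : g (fEl hn z s) = ∑ l, s l * g (bEl hn z l) := by
  unfold fEl
  rw [map_sum]
  refine sum_congr rfl fun l _ => ?_
  rw [map_smul, smul_eq_mul]

/-- The bound along a kept edge. -/
theorem core_edge (hn : 1 ≤ n) {a : ℝ} (ha : 0 ≤ a) {g g' e' : StrongDual ℝ (Lip0 Mt basePt)}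
    (hgg : ‖g - g'‖ ≤ a) (hge : ‖g' - e'‖ ≤ a * mT n + 1) {z : (Gn n i0.1).V} {c : Color}
    (hc : i0.2.1 z c)
    (he : ∀ F : Lip0 Mt basePt, e' F = F.fn ⟨n, Sum.inl (zPr i0 ((Gn n i0.1).act c z))⟩) :
    ∑ l : Lab J i0, |g (bEl hn z l) - g' (bEl hn ((Gn n i0.1).act c z) l)| ≤
      a * (2 / mT n) + (a * mT n + 1) * (2 / (rN n : ℝ)) + 1 / (rN n : ℝ) := by
  classical
  set z' := (Gn n i0.1).act c z with hz'
  let d : Lab J i0 → ℝ := fun l => g (bEl hn z l) - g' (bEl hn z' l)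
  let s : Lab J i0 → ℝ := fun l => if 0 ≤ d l then 1 else -1
  have hs : ∀ l, |s l| ≤ 1 := by
    intro l
    simp only [s]
    split_ifs <;> simp
  have hsd : ∀ l, |d l| = s l * d l := by
    intro l
    simp only [s]
    split_ifs with h
    · rw [abs_of_nonneg h, one_mul]
    · rw [abs_of_neg (not_le.mp h)]; ring
  have hsum : ∑ l, |d l| = g (fEl hn z s) - g' (fEl hn z' s) := by
    rw [apply_fEl, apply_fEl, ← sum_sub_distrib]
    refine sum_congr rfl fun l _ => ?_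
    rw [hsd l]
    simp only [d]
    ring
  set F := fEl hn z s with hF
  set F' := fEl hn z' s with hF'
  have hsplit : g F - g' F' = (g - g') F + (g' - e') (F - F') + e' (F - F') := by
    simp only [_root_.sub_apply, map_sub]
    ring
  have h1 : (g - g') F ≤ a * (2 / mT n) := by
    calc (g - g') F ≤ |(g - g') F| := le_abs_self _
      _ = ‖(g - g') F‖ := (Real.norm_eq_abs _).symm
      _ ≤ ‖g - g'‖ * ‖F‖ := ContinuousLinearMap.le_opNorm _ _
      _ ≤ a * (2 / mT n) := mul_le_mul hgg (fEl_norm hn z hs) (norm_nonneg _) ha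
  have hA : 0 ≤ a * mT n + 1 := by have := mT_pos n; positivity
  have h2 : (g' - e') (F - F') ≤ (a * mT n + 1) * (2 / (rN n : ℝ)) := by
    calc (g' - e') (F - F') ≤ |(g' - e') (F - F')| := le_abs_self _
      _ = ‖(g' - e') (F - F')‖ := (Real.norm_eq_abs _).symm
      _ ≤ ‖g' - e'‖ * ‖F - F'‖ := ContinuousLinearMap.le_opNorm _ _
      _ ≤ (a * mT n + 1) * (2 / (rN n : ℝ)) :=
          mul_le_mul hge (fEl_sub_norm hn hc hs) (norm_nonneg _) hA
  have h3 : e' (F - F') ≤ 1 / (rN n : ℝ) := by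
    rw [he]
    exact (le_abs_self _).trans (fEl_sub_hub hn hc hs _)
  change ∑ l, |d l| ≤ _
  rw [hsum, hsplit]
  linarith

/-- The mass of the test functions is close to one. -/
theorem core_mass (hn : 1 ≤ n) {a : ℝ} {g e : StrongDual ℝ (Lip0 Mt basePt)}
    (hge : ‖g - e‖ ≤ a * mT n + 1) (ha : 0 ≤ a) {z : (Gn n i0.1).V}
    (he : e (phiEl hn (zPr i0 z)) = 1)
    (htail : |g (hEl hn J (zPr i0 z))| ≤ ‖hEl hn J (zPr i0 z)‖) :
    1 - ((a * mT n + 1) * (1 / (rN n : ℝ)) + 1 / mT n) ≤ ∑ l : Lab J i0, g (bEl hn z l) := by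
  have h0 : ∑ l : Lab J i0, g (bEl hn z l) = g (fEl hn z (fun _ : Lab J i0 => (1 : ℝ))) := by
    rw [apply_fEl]
    simp
  rw [h0, fEl_one, map_sub]
  have h1 : |(g - e) (phiEl hn (zPr i0 z))| ≤ (a * mT n + 1) * (1 / (rN n : ℝ)) := by
    rw [← Real.norm_eq_abs]
    have hA : 0 ≤ a * mT n + 1 := by have := mT_pos n; positivity
    exact (ContinuousLinearMap.le_opNorm _ _).trans
      (mul_le_mul hge (phiEl_norm hn _) (norm_nonneg _) hA)
  have h2 : g (phiEl hn (zPr i0 z)) = (g - e) (phiEl hn (zPr i0 z)) + 1 := by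
    rw [_root_.sub_apply, he]
    ring
  have h3 := (abs_le.mp h1).1
  have h4 := (abs_le.mp (htail.trans (hEl_norm hn _))).2
  rw [h2]
  linarith

end Main

theorem numeric_final (n : ℕ) {a : ℝ} (ha : 0 ≤ a) (hta : 76 * a ≤ mT n) :
    19 * (a * (2 / mT n) + (a * mT n + 1) * (2 / (rN n : ℝ)) + 1 / (rN n : ℝ)) <
      2 * (1 - ((a * mT n + 1) * (1 / (rN n : ℝ)) + 1 / mT n)) := by
  have ht := mT_ge n
  have ht0 := mT_pos n
  have hr := rN_real_pos n
  have hrt := rN_eq n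
  have h1 : a * (2 / mT n) ≤ 1 / 38 := by
    rw [mul_div_assoc', div_le_iff₀ ht0]
    linarith
  have hA : a * mT n + 1 ≤ (mT n) ^ 2 := by
    nlinarith
  have h2 : (a * mT n + 1) * (1 / (rN n : ℝ)) ≤ 1 / 1900 := by
    rw [mul_one_div, div_le_iff₀ hr, hrt]
    linarith
  have h3 : 1 / (rN n : ℝ) ≤ 1 / 1900 := by
    refine one_div_le_one_div_of_le (by norm_num) ?_
    rw [hrt]
    nlinarith
  have h4 : 1 / mT n ≤ 1 / 8 := one_div_le_one_div_of_le (by norm_num) ht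
  have h5 : (a * mT n + 1) * (2 / (rN n : ℝ)) = 2 * ((a * mT n + 1) * (1 / (rN n : ℝ))) := by
    ring
  rw [h5]
  linarith

open Classical in
/-- **The contradiction at one level.** -/
theorem level_core (hn : 1 ≤ n) {a : ℝ} (ha : 0 ≤ a) (hta : 76 * a ≤ mT n)
    (g : Mt → StrongDual ℝ (Lip0 Mt basePt)) (hg1 : ∀ x y, ‖g x - g y‖ ≤ a * dist x y)
    (hg2 : ∀ b : (Bn n).V, ‖g ⟨n, Sum.inl b⟩ - delta ⟨n, Sum.inl b⟩‖ ≤ 1)
    (J : Set (Comp n)) (hfin : Finite {p : Pt n // inSp J p})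
    (htail : ∀ x : Mt, mLev x = n → ∀ h : Lip0 Mt basePt,
      (∀ p, inSp J p → h.fn ⟨n, p⟩ = 0) → (∀ m (p : Pt m), m ≠ n → h.fn ⟨m, p⟩ = 0) →
        |g x h| ≤ ‖h‖)
    (i0 : Comp n) (ℓ : ℕ) (hAv : Avoid (compReader i0) (spReader J) ℓ)
    (hgir : Gir (Gn n i0.1) (2 * (ℓ + 4 * rN n) + 1)) : False := by
  have hfinP : Finite ((Gn n i0.1).V × {p : Pt n // inSp J p}) := inferInstance
  have hfinL : Finite (Lab J i0) := Quot.finite _
  let _ : Fintype (Lab J i0) := Fintype.ofFinite _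
  have hB : Gir (Bn n) (4 * rN n) := (tower_gir (dN n)).mono (by have := dN_spec n; omega)
  let v : (Gn n i0.1).V → Lab J i0 → ℝ := fun z l => g ⟨n, Sum.inr ⟨i0, z⟩⟩ (bEl hn z l)
  set η : ℝ := a * (2 / mT n) + (a * mT n + 1) * (2 / (rN n : ℝ)) + 1 / (rN n : ℝ) with hη
  set η' : ℝ := (a * mT n + 1) * (1 / (rN n : ℝ)) + 1 / mT n with hη'
  have hηnn : 0 ≤ η := by
    have := mT_pos n
    have := rN_real_pos n
    positivity
  have hspoke : ∀ z : (Gn n i0.1).V,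
      ‖g ⟨n, Sum.inr ⟨i0, z⟩⟩ - delta ⟨n, Sum.inl (zPr i0 z)⟩‖ ≤ a * mT n + 1 := by
    intro z
    have h1 := hg1 ⟨n, Sum.inr ⟨i0, z⟩⟩ ⟨n, Sum.inl (zPr i0 z)⟩
    have h2 : dist (⟨n, Sum.inr ⟨i0, z⟩⟩ : Mt) ⟨n, Sum.inl (zPr i0 z)⟩ ≤ mT n :=
      dist_spoke (Sum.inr ⟨i0, z⟩)
    have h3 := hg2 (zPr i0 z)
    have h4 : a * dist (⟨n, Sum.inr ⟨i0, z⟩⟩ : Mt) ⟨n, Sum.inl (zPr i0 z)⟩ ≤ a * mT n :=
      mul_le_mul_of_nonneg_left h2 ha
    calc _ = ‖(g ⟨n, Sum.inr ⟨i0, z⟩⟩ - g ⟨n, Sum.inl (zPr i0 z)⟩) +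
          (g ⟨n, Sum.inl (zPr i0 z)⟩ - delta ⟨n, Sum.inl (zPr i0 z)⟩)‖ := by
            rw [sub_add_sub_cancel]
      _ ≤ _ := norm_add_le _ _
      _ ≤ a * mT n + 1 := by linarith
  -- the edge bound
  have hedge : ∀ z c, i0.2.1 z c → ∑ l, |v z l - v ((Gn n i0.1).act c z) l| ≤ η := by
    intro z c hc
    refine core_edge hn ha ?_ (hspoke _) hc (fun F => rfl)
    have h1 := hg1 ⟨n, Sum.inr ⟨i0, z⟩⟩ ⟨n, Sum.inr ⟨i0, (Gn n i0.1).act c z⟩⟩
    have h2 : dist (⟨n, Sum.inr ⟨i0, z⟩⟩ : Mt) ⟨n, Sum.inr ⟨i0, (Gn n i0.1).act c z⟩⟩ ≤ 1 :=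
      dist_edge (p := Sum.inr ⟨i0, z⟩) (c := c) hc
    calc _ ≤ _ := h1
      _ ≤ a * 1 := mul_le_mul_of_nonneg_left h2 ha
      _ = a := mul_one a
  -- the mass
  have hmass : ∀ z, 1 - η' ≤ ∑ l, v z l := by
    intro z
    refine core_mass hn (hspoke z) ha ?_ ?_
    · change (phiEl hn (zPr i0 z)).fn ⟨n, Sum.inl (zPr i0 z)⟩ = 1
      rw [phiEl_fn, lvl_self]
      exact phi_self _
    · refine htail _ rfl _ ?_ ?_
      · intro p hp
        rw [hEl_fn, lvl_self]
        exact if_pos hp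
      · intro m p hm
        rw [hEl_fn, lvl_ne _ hm]
  -- the support of a label
  let U : Lab J i0 → Set (Gn n i0.1).V := fun l =>
    {z | ∃ x : {p : Pt n // inSp J p}, lab J i0 z x = l ∧
      Vld (Bn n) (rN n) (zPr i0 z) (ptPr x.1)}
  have hsupp : ∀ l z, z ∉ U l → v z l = 0 := by
    intro l z hz
    have hzero : bEl hn z l = 0 := by
      refine Lip0.ext' ?_
      rintro ⟨m, p⟩
      rw [bEl_fn, Lip0.fn_zero]
      by_cases hm : m = n
      · subst hm
        rw [lvl_self]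
        by_cases h : inSp J p
        · rw [Fg_of_mem h]
          by_cases hl : lab J i0 z ⟨p, h⟩ = l
          · have hV : ¬ Vld (Bn m) (rN m) (zPr i0 z) (ptPr p) := fun hV => hz ⟨⟨p, h⟩, hl, hV⟩
            have hφ : phiL m (zPr i0 z) (ptPr p) = 0 := phi_eq_zero (rN_pos m) hV
            rw [hφ, mul_zero]
          · have : indL l (lab J i0 z ⟨p, h⟩) = 0 := if_neg hl
            rw [this, zero_mul]
        · exact Fg_of_not_mem h
      · exact lvl_ne _ hm p
    simp only [v, hzero, map_zero]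
  have hW : ∀ l, ∃ z0 : (Gn n i0.1).V, ∀ u ∈ U l,
      ∃ P : List Color, Red P ∧ walk (Gn n i0.1).act z0 P = u ∧ P.length < ℓ + 4 * rN n := by
    intro l
    rcases (U l).eq_empty_or_nonempty with hemp | ⟨z0, x0, hl0, hV0⟩
    · refine ⟨towerPoint _, fun u hu => ?_⟩
      rw [hemp] at hu
      exact hu.elim
    · refine ⟨z0, ?_⟩
      rintro u ⟨x, hl, -⟩
      have hq : Relation.EqvGen (PStep (compReader i0) (spReader J) (rN n)) (z0, x0) (u, x) :=
        Quot.eqvGen_exact (hl0.trans hl.symm)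
      exact chain_bound hB hAv hV0 hq
  -- the Cheeger inequality for each label
  have hch : ∀ l, 2 * ∑ z, |v z l| ≤ keptTV (Gn n i0.1).act i0.2.1 (fun z => v z l) := by
    intro l
    obtain ⟨z0, hz0⟩ := hW l
    exact forest_cheeger (Gn n i0.1) hgir i0.2.1 i0.2.2.1 (0, 0) (fun u => (i0.2.2.2 u).1) z0
      (U l) hz0 (fun z => v z l) (hsupp l)
  -- summing up
  let ZC : ℝ := (Fintype.card (Gn n i0.1).V : ℝ)
  have hZC : 0 < ZC := by
    have : 0 < Fintype.card (Gn n i0.1).V := Fintype.card_pos_iff.mpr ⟨towerPoint _⟩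
    exact Nat.cast_pos.mpr this
  have hlow : ZC * (1 - η') ≤ ∑ z, ∑ l, |v z l| := by
    have h1 : ∑ _z : (Gn n i0.1).V, (1 - η') = ZC * (1 - η') := by
      rw [sum_const, nsmul_eq_mul, card_univ]
    rw [← h1]
    refine sum_le_sum fun z _ => (hmass z).trans ?_
    exact sum_le_sum fun l _ => le_abs_self _
  have hup : ∑ l, keptTV (Gn n i0.1).act i0.2.1 (fun z => v z l) ≤ ZC * (19 * η) := by
    have h1 : ∑ l, keptTV (Gn n i0.1).act i0.2.1 (fun z => v z l) =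
        ∑ z, ∑ c, if i0.2.1 z c then ∑ l, |v z l - v ((Gn n i0.1).act c z) l| else 0 := by
      unfold keptTV
      rw [sum_comm]
      refine sum_congr rfl fun z _ => ?_
      rw [sum_comm]
      refine sum_congr rfl fun c _ => ?_
      split_ifs
      · rfl
      · simp
    rw [h1]
    have h2 : ∀ z, (∑ c, if i0.2.1 z c then
        ∑ l, |v z l - v ((Gn n i0.1).act c z) l| else 0) ≤ 19 * η := by
      intro z
      calc (∑ c, if i0.2.1 z c then ∑ l, |v z l - v ((Gn n i0.1).act c z) l| else 0)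
          ≤ ∑ c, if i0.2.1 z c then η else 0 := by
            refine sum_le_sum fun c _ => ?_
            split_ifs with hc
            · exact hedge z c hc
            · exact le_rfl
        _ = ((univ.filter (i0.2.1 z)).card : ℝ) * η := by
            rw [← sum_filter, sum_const, nsmul_eq_mul]
        _ ≤ 19 * η := by
            refine mul_le_mul_of_nonneg_right ?_ hηnn
            exact_mod_cast (i0.2.2.2 z).2
    calc _ ≤ ∑ _z : (Gn n i0.1).V, 19 * η := sum_le_sum fun z _ => h2 z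
      _ = ZC * (19 * η) := by rw [sum_const, nsmul_eq_mul, card_univ]
  have hmain : 2 * ∑ z, ∑ l, |v z l| ≤ ZC * (19 * η) := by
    refine le_trans ?_ hup
    rw [sum_comm, mul_sum]
    exact sum_le_sum fun l _ => hch l
  have hfinal : ZC * (2 * (1 - η')) ≤ ZC * (19 * η) := by
    refine le_trans ?_ hmain
    nlinarith
  have := le_of_mul_le_mul_left hfinal hZC
  have hnum := numeric_final n ha hta
  linarith

end

end Vale.Agent.Lib.P090
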