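import Mathlib

/-!
# A metric defined by duality from a graph with edges and spokes
-/

set_option linter.unusedSectionVars false

namespace Vale.Agent.Lib.P090

section

variable {M : Type} (lev : M → ℕ) (E S : M → M → Prop) (t D : ℕ → ℝ)

/-- The admissible functions: bounded on each level, `1`-Lipschitz on edges and
`t`-Lipschitz on spokes. -/
structure Adm (f : M → ℝ) : Prop where
  bd : ∀ x, 0 ≤ f x ∧ f x ≤ D (lev x)
  edge : ∀ x y, E x y → |f x - f y| ≤ 1
  spoke : ∀ x y, S x y → |f x - f y| ≤ t (lev x)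

/-- The metric by duality. -/
noncomputable def aDist (x y : M) : ℝ :=
  sSup {r | ∃ f, Adm lev E S t D f ∧ r = |f x - f y|}

variable {lev E S t D}

theorem adm_zero (ht : ∀ n, 0 ≤ t n) (hD : ∀ n, 0 ≤ D n) : Adm lev E S t D (fun _ => 0) :=
  ⟨fun x => ⟨le_rfl, hD _⟩, fun _ _ _ => by simp, fun x _ _ => by simpa using ht (lev x)⟩

theorem adist_set_bdd (x y : M) :
    BddAbove {r | ∃ f, Adm lev E S t D f ∧ r = |f x - f y|} := by
  refine ⟨D (lev x) + D (lev y), ?_⟩
  rintro r ⟨f, hf, rfl⟩
  have h1 := hf.bd x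
  have h2 := hf.bd y
  rw [abs_le]
  constructor <;> linarith [h1.1, h1.2, h2.1, h2.2]

theorem abs_le_aDist {f : M → ℝ} (hf : Adm lev E S t D f) (x y : M) :
    |f x - f y| ≤ aDist lev E S t D x y :=
  le_csSup (adist_set_bdd x y) ⟨f, hf, rfl⟩

theorem aDist_le (ht : ∀ n, 0 ≤ t n) (hD : ∀ n, 0 ≤ D n) {x y : M} {K : ℝ}
    (h : ∀ f, Adm lev E S t D f → |f x - f y| ≤ K) : aDist lev E S t D x y ≤ K :=
  csSup_le ⟨_, _, adm_zero ht hD, rfl⟩ (by
    rintro r ⟨f, hf, rfl⟩
    exact h f hf)

theorem aDist_nonneg (ht : ∀ n, 0 ≤ t n) (hD : ∀ n, 0 ≤ D n) (x y : M) :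
    0 ≤ aDist lev E S t D x y :=
  (abs_nonneg _).trans (abs_le_aDist (adm_zero ht hD) x y)

theorem aDist_edge (ht : ∀ n, 0 ≤ t n) (hD : ∀ n, 0 ≤ D n) {x y : M} (h : E x y) :
    aDist lev E S t D x y ≤ 1 :=
  aDist_le ht hD fun _ hf => hf.edge x y h

theorem aDist_spoke (ht : ∀ n, 0 ≤ t n) (hD : ∀ n, 0 ≤ D n) {x y : M} (h : S x y) :
    aDist lev E S t D x y ≤ t (lev x) :=
  aDist_le ht hD fun _ hf => hf.spoke x y h

theorem aDist_bound (ht : ∀ n, 0 ≤ t n) (hD : ∀ n, 0 ≤ D n) (x y : M) :
    aDist lev E S t D x y ≤ D (lev x) + D (lev y) :=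
  aDist_le ht hD fun f hf => by
    have h1 := hf.bd x
    have h2 := hf.bd y
    rw [abs_le]
    constructor <;> linarith [h1.1, h1.2, h2.1, h2.2]

theorem one_le_aDist (ht : ∀ n, 1 ≤ t n) (hD : ∀ n, 1 ≤ D n) {x y : M} (hxy : x ≠ y) :
    1 ≤ aDist lev E S t D x y := by
  classical
  let f : M → ℝ := fun z => if z = x then 1 else 0
  have hf01 : ∀ z, 0 ≤ f z ∧ f z ≤ 1 := by
    intro z
    simp only [f]
    split_ifs <;> norm_num
  have hdiff : ∀ u v, |f u - f v| ≤ 1 := by
    intro u v
    have h1 := hf01 u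
    have h2 := hf01 v
    rw [abs_le]
    constructor <;> linarith [h1.1, h1.2, h2.1, h2.2]
  have hf : Adm lev E S t D f :=
    ⟨fun z => ⟨(hf01 z).1, (hf01 z).2.trans (hD _)⟩, fun u v _ => hdiff u v,
      fun u v _ => (hdiff u v).trans (ht _)⟩
  have h := abs_le_aDist hf x y
  simpa [f, hxy.symm] using h

/-- The metric space given by duality. -/
@[reducible] noncomputable def aMetric (ht : ∀ n, 1 ≤ t n) (hD : ∀ n, 1 ≤ D n) : MetricSpace M :=
  have ht0 : ∀ n, 0 ≤ t n := fun n => zero_le_one.trans (ht n)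
  have hD0 : ∀ n, 0 ≤ D n := fun n => zero_le_one.trans (hD n)
  { dist := aDist lev E S t D
    dist_self := fun x =>
      le_antisymm (aDist_le ht0 hD0 fun f _ => by simp) (aDist_nonneg ht0 hD0 x x)
    dist_comm := fun x y =>
      le_antisymm
        (aDist_le ht0 hD0 fun f hf => by rw [abs_sub_comm]; exact abs_le_aDist hf y x)
        (aDist_le ht0 hD0 fun f hf => by rw [abs_sub_comm]; exact abs_le_aDist hf x y)
    dist_triangle := fun x y z =>
      aDist_le ht0 hD0 fun f hf => by
        have h1 := abs_le_aDist hf x y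
        have h2 := abs_le_aDist hf y z
        calc |f x - f z| = |(f x - f y) + (f y - f z)| := by congr 1; ring
          _ ≤ |f x - f y| + |f y - f z| := abs_add_le _ _
          _ ≤ _ := add_le_add h1 h2
    eq_of_dist_eq_zero := fun {x y} h => by
      by_contra hxy
      have := one_le_aDist (lev := lev) (E := E) (S := S) ht hD hxy
      change aDist lev E S t D x y = 0 at h
      linarith }

/-- Functions vanishing off a level and with controlled increments are Lipschitz. -/
theorem lip_of_edge (ht : ∀ n, 0 ≤ t n) (hD : ∀ n, 0 ≤ D n)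
    (hElev : ∀ x y, E x y → lev x = lev y) (hSlev : ∀ x y, S x y → lev x = lev y)
    {f : M → ℝ} {n : ℕ} {L : ℝ} (hL : 0 < L) (h0 : ∀ x, lev x ≠ n → f x = 0)
    (hB : ∀ x, |f x| ≤ L * (D n / 2)) (hE : ∀ x y, E x y → |f x - f y| ≤ L)
    (hS : ∀ x y, S x y → |f x - f y| ≤ L * t (lev x)) (x y : M) :
    |f x - f y| ≤ L * aDist lev E S t D x y := by
  classical
  let G : M → ℝ := fun z => if lev z = n then f z / L + D n / 2 else 0
  have hG : Adm lev E S t D G := by
    refine ⟨fun z => ?_, fun u v huv => ?_, fun u v huv => ?_⟩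
    · simp only [G]
      split_ifs with hz
      · have h1 := abs_le.mp (hB z)
        rw [hz]
        have h2 : - (D n / 2) ≤ f z / L := by
          rw [le_div_iff₀ hL]; nlinarith [h1.1]
        have h3 : f z / L ≤ D n / 2 := by
          rw [div_le_iff₀ hL]; nlinarith [h1.2]
        constructor <;> linarith
      · exact ⟨le_rfl, hD _⟩
    · simp only [G]
      rw [← hElev u v huv]
      split_ifs with hz
      · have : f u / L + D n / 2 - (f v / L + D n / 2) = (f u - f v) / L := by ring
        rw [this, abs_div, abs_of_pos hL, div_le_one hL]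
        exact hE u v huv
      · simp
    · simp only [G]
      rw [← hSlev u v huv]
      split_ifs with hz
      · have : f u / L + D n / 2 - (f v / L + D n / 2) = (f u - f v) / L := by ring
        rw [this, abs_div, abs_of_pos hL, div_le_iff₀ hL, mul_comm]
        exact hS u v huv
      · simpa using ht (lev u)
  let G' : M → ℝ := fun z => if lev z = n then D n else 0
  have hG' : Adm lev E S t D G' := by
    refine ⟨fun z => ?_, fun u v huv => ?_, fun u v huv => ?_⟩
    · simp only [G']
      split_ifs with hz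
      · rw [hz]
        exact ⟨hD n, le_rfl⟩
      · exact ⟨le_rfl, hD _⟩
    · simp only [G']
      rw [← hElev u v huv]
      split_ifs <;> simp
    · simp only [G']
      rw [← hSlev u v huv]
      split_ifs <;> simpa using ht (lev u)
  have hdnn : 0 ≤ aDist lev E S t D x y := aDist_nonneg ht hD x y
  by_cases hx : lev x = n <;> by_cases hy : lev y = n
  · have h1 := abs_le_aDist hG x y
    simp only [G, hx, hy, if_true] at h1
    have : f x / L + D n / 2 - (f y / L + D n / 2) = (f x - f y) / L := by ring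
    rw [this, abs_div, abs_of_pos hL, div_le_iff₀ hL, mul_comm] at h1
    exact h1
  · have h1 := abs_le_aDist hG' x y
    simp only [G', hx, hy, if_true, if_false, sub_zero] at h1
    rw [abs_of_nonneg (hD n)] at h1
    rw [h0 y hy, sub_zero]
    refine (hB x).trans (mul_le_mul_of_nonneg_left ?_ hL.le)
    linarith [hD n]
  · have h1 := abs_le_aDist hG' x y
    simp only [G', hx, hy, if_true, if_false, zero_sub, abs_neg] at h1
    rw [abs_of_nonneg (hD n)] at h1
    rw [h0 x hx, zero_sub, abs_neg]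
    refine (hB y).trans (mul_le_mul_of_nonneg_left ?_ hL.le)
    linarith [hD n]
  · rw [h0 x hx, h0 y hy]
    simpa using mul_nonneg hL.le hdnn

end

end Vale.Agent.Lib.P090
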