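import Vale.Agent.Lib.P090.Defs

/-!
From the bounded approximation property to a family of functionals `g x = T δ_x`.
-/

namespace Vale.Agent.Lib.P090

variable {M : Type} [MetricSpace M] {o : M}

theorem norm_delta_sub_le (x y : M) :
    ‖(delta x - delta y : StrongDual ℝ (Lip0 M o))‖ ≤ dist x y := by
  refine ContinuousLinearMap.opNorm_le_bound _ dist_nonneg fun f => ?_
  rw [_root_.sub_apply, delta_apply, delta_apply, Real.norm_eq_abs, mul_comm]
  exact Lip0.abs_sub_le f x y

/-- An element of the span of the evaluations only depends on finitely many points. -/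
theorem span_finite_support (y : StrongDual ℝ (Lip0 M o))
    (hy : y ∈ Submodule.span ℝ (Set.range (delta : M → StrongDual ℝ (Lip0 M o)))) :
    ∃ S : Finset M, ∀ h : Lip0 M o, (∀ s ∈ S, h.fn s = 0) → y h = 0 := by
  classical
  induction hy using Submodule.span_induction with
  | mem x hx =>
    obtain ⟨a, rfl⟩ := hx
    exact ⟨{a}, fun h hh => hh a (Finset.mem_singleton_self a)⟩
  | zero => exact ⟨∅, fun h _ => rfl⟩
  | add a b _ _ ha hb =>
    obtain ⟨S, hS⟩ := ha
    obtain ⟨S', hS'⟩ := hb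
    refine ⟨S ∪ S', fun h hh => ?_⟩
    rw [_root_.add_apply, hS h fun s hs => hh s (Finset.mem_union_left _ hs),
      hS' h fun s hs => hh s (Finset.mem_union_right _ hs), add_zero]
  | smul c a _ ha =>
    obtain ⟨S, hS⟩ := ha
    refine ⟨S, fun h hh => ?_⟩
    rw [_root_.smul_apply, hS h hh, smul_zero]

/-- The element `δ_x` of the Lipschitz-free space. -/
noncomputable def deltaF (x : M) : ↥(lipFree M o) :=
  ⟨delta x, Submodule.le_topologicalClosure _ (Submodule.subset_span ⟨x, rfl⟩)⟩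

/-- The family of functionals extracted from an approximating operator. -/
theorem exists_functionals {lam : ℝ} (hlam : HasBAP lam ↥(lipFree M o)) (F : Finset M) :
    ∃ g : M → StrongDual ℝ (Lip0 M o),
      (∀ x y, ‖g x - g y‖ ≤ max lam 0 * dist x y) ∧
      (∀ b ∈ F, ‖g b - delta b‖ ≤ 1) ∧
      ∀ Y : Set M, Bornology.IsBounded Y →
        ∃ S : Finset M, ∀ x ∈ Y, ∀ h : Lip0 M o, (∀ s ∈ S, h.fn s = 0) → |g x h| ≤ ‖h‖ := by
  classical
  have hC : IsCompact ((fun x => (deltaF x : ↥(lipFree M o))) '' (F : Set M)) :=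
    (F.finite_toSet.image _).isCompact
  obtain ⟨T, hfin, hT, hTC⟩ := hlam _ hC 1 one_pos
  have hT' : ‖T‖ ≤ max lam 0 := hT.trans (le_max_left _ _)
  refine ⟨fun x => (T (deltaF x) : StrongDual ℝ (Lip0 M o)), ?_, ?_, ?_⟩
  · intro x y
    have h1 : ‖T (deltaF x) - T (deltaF y)‖ ≤ ‖T‖ * ‖(deltaF x - deltaF y : ↥(lipFree M o))‖ := by
      have h0 := T.le_opNorm (deltaF x - deltaF y)
      have h00 : T (deltaF x - deltaF y) = T (deltaF x) - T (deltaF y) := map_sub T _ _
      rwa [h00] at h0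
    have h2 : ‖(deltaF x - deltaF y : ↥(lipFree M o))‖ ≤ dist x y := norm_delta_sub_le x y
    calc _ = ‖T (deltaF x) - T (deltaF y)‖ := rfl
      _ ≤ ‖T‖ * ‖(deltaF x - deltaF y : ↥(lipFree M o))‖ := h1
      _ ≤ max lam 0 * dist x y :=
          mul_le_mul hT' h2 (by positivity) (le_max_right _ _)
  · intro b hb
    have := hTC (deltaF b) ⟨b, hb, rfl⟩
    exact le_of_lt this
  · intro Y hY
    -- the image of `Y` is bounded in the range of `T`
    obtain ⟨R, hR⟩ := hY.subset_closedBall o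
    let E := LinearMap.range (T : ↥(lipFree M o) →ₗ[ℝ] ↥(lipFree M o))
    have : FiniteDimensional ℝ E := hfin
    have : ProperSpace E := FiniteDimensional.proper ℝ E
    let im : Set E := (fun x => (⟨T (deltaF x), deltaF x, rfl⟩ : E)) '' Y
    have him : Bornology.IsBounded im := by
      refine (Metric.isBounded_closedBall (x := (0 : E)) (r := ‖T‖ * (‖(deltaF o : ↥(lipFree M o))‖ + R))).subset ?_
      rintro _ ⟨x, hx, rfl⟩
      rw [mem_closedBall_zero_iff]
      have h1 : ‖T (deltaF x)‖ ≤ ‖T‖ * ‖(deltaF x : ↥(lipFree M o))‖ := T.le_opNorm _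
      have h2 : ‖(deltaF x : ↥(lipFree M o))‖ ≤ ‖(deltaF o : ↥(lipFree M o))‖ + R := by
        have h3 : ‖(deltaF x - deltaF o : ↥(lipFree M o))‖ ≤ dist x o := norm_delta_sub_le x o
        have h4 : dist x o ≤ R := hR hx
        have h5 := norm_sub_norm_le (deltaF x : ↥(lipFree M o)) (deltaF o)
        linarith
      exact h1.trans (mul_le_mul_of_nonneg_left h2 (norm_nonneg _))
    have htb : TotallyBounded im := (Metric.isCompact_of_isClosed_isBounded isClosed_closure him.closure).totallyBounded.subset subset_closure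
    obtain ⟨net, hnetfin, hnet⟩ := Metric.totallyBounded_iff.mp htb (1 / 4) (by norm_num)
    -- approximate each center by an element of the span
    have hclose : ∀ y : E, ∃ S : Finset M, ∃ y' : StrongDual ℝ (Lip0 M o),
        ‖((y : ↥(lipFree M o)) : StrongDual ℝ (Lip0 M o)) - y'‖ < 1 / 4 ∧
        ∀ h : Lip0 M o, (∀ s ∈ S, h.fn s = 0) → y' h = 0 := by
      intro y
      have hy : ((y : ↥(lipFree M o)) : StrongDual ℝ (Lip0 M o)) ∈
          closure (Submodule.span ℝ (Set.range (delta : M → StrongDual ℝ (Lip0 M o))) :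
            Set (StrongDual ℝ (Lip0 M o))) := (y : ↥(lipFree M o)).2
      obtain ⟨y', hy', hd⟩ := Metric.mem_closure_iff.mp hy (1 / 4) (by norm_num)
      obtain ⟨S, hS⟩ := span_finite_support y' hy'
      refine ⟨S, y', ?_, hS⟩
      rwa [← dist_eq_norm]
    choose Sy y' hy' hSy using hclose
    refine ⟨hnetfin.toFinset.biUnion Sy, fun x hx h hh => ?_⟩
    have hmem : (⟨T (deltaF x), deltaF x, rfl⟩ : E) ∈ ⋃ y ∈ net, Metric.ball y (1 / 4) :=
      hnet ⟨x, hx, rfl⟩
    simp only [Set.mem_iUnion, exists_prop] at hmem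
    obtain ⟨y, hyn, hyb⟩ := hmem
    have hd : ‖((T (deltaF x) : ↥(lipFree M o)) : StrongDual ℝ (Lip0 M o)) -
        ((y : ↥(lipFree M o)) : StrongDual ℝ (Lip0 M o))‖ < 1 / 4 := by
      rw [Metric.mem_ball, dist_eq_norm] at hyb
      exact hyb
    have hz : y' y h = 0 := hSy y h fun s hs =>
      hh s (Finset.mem_biUnion.mpr ⟨y, hnetfin.mem_toFinset.mpr hyn, hs⟩)
    set gx : StrongDual ℝ (Lip0 M o) := ((T (deltaF x) : ↥(lipFree M o)) : StrongDual ℝ (Lip0 M o))
    set yy : StrongDual ℝ (Lip0 M o) := ((y : ↥(lipFree M o)) : StrongDual ℝ (Lip0 M o))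
    have hsplit : gx h = (gx - y' y) h := by
      rw [_root_.sub_apply, hz, sub_zero]
    have hn : ‖gx - y' y‖ ≤ 1 := by
      calc ‖gx - y' y‖ = ‖(gx - yy) + (yy - y' y)‖ := by rw [sub_add_sub_cancel]
        _ ≤ ‖gx - yy‖ + ‖yy - y' y‖ := norm_add_le _ _
        _ ≤ 1 := by
          have := hy' y
          linarith
    rw [hsplit, ← Real.norm_eq_abs]
    calc ‖(gx - y' y) h‖ ≤ ‖gx - y' y‖ * ‖h‖ := ContinuousLinearMap.le_opNorm _ _
      _ ≤ 1 * ‖h‖ := mul_le_mul_of_nonneg_right hn (norm_nonneg _)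
      _ = ‖h‖ := one_mul _

end Vale.Agent.Lib.P090
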