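import Mathlib

/-!
# A counting form of the local lemma (Rosenfeld's method)
-/

set_option linter.unusedSectionVars false

namespace Vale.Agent.Lib.P090

open Finset

section Rosenfeld

variable {X A ι : Type} [Fintype X] [DecidableEq X] [Fintype A] [DecidableEq A] [Fintype ι]

open Classical in
/-- Assignments which are constant off `U` and violate no constraint supported in `U`. -/
noncomputable def rGood (supp : ι → Finset X) (val : ι → X → A) (a0 : A) (U : Finset X) :
    Finset (X → A) :=
  univ.filter fun f => (∀ y, y ∉ U → f y = a0) ∧ ∀ i, supp i ⊆ U → ¬ ∀ x ∈ supp i, f x = val i x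

open Classical in
theorem mem_rGood {supp : ι → Finset X} {val : ι → X → A} {a0 : A} {U : Finset X} {f : X → A} :
    f ∈ rGood supp val a0 U ↔
      (∀ y, y ∉ U → f y = a0) ∧ ∀ i, supp i ⊆ U → ¬ ∀ x ∈ supp i, f x = val i x := by
  simp [rGood]

/-- The count of a bad constraint is bounded by the count on a smaller set. -/
theorem rosenfeld_bad_count (supp : ι → Finset X) (val : ι → X → A) (a0 : A) (U : Finset X)
    (x : X) (i : ι) (hi : x ∈ supp i) :
    ((rGood supp val a0 U ×ˢ (univ : Finset A)).filter
        fun p => ∀ y ∈ supp i, Function.update p.1 x p.2 y = val i y).card ≤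
      (rGood supp val a0 (U \ (supp i).erase x)).card := by
  classical
  refine Finset.card_le_card_of_injOn
    (fun p y => if y ∈ (supp i).erase x then a0 else p.1 y) ?_ ?_
  · rintro ⟨f, a⟩ hp
    simp only [coe_filter, mem_product, mem_univ, and_true, Set.mem_ofPred_eq] at hp
    obtain ⟨hf, hsat⟩ := hp
    obtain ⟨hf1, hf2⟩ := mem_rGood.mp hf
    rw [mem_coe, mem_rGood]
    refine ⟨fun y hy => ?_, fun j hj hsatj => ?_⟩
    · simp only
      split_ifs with h
      · rfl
      · refine hf1 y fun hyU => hy ?_
        simp only [mem_sdiff]
        exact ⟨hyU, h⟩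
    · refine hf2 j (hj.trans sdiff_subset) fun y hy => ?_
      have h1 := hsatj y hy
      simp only at h1
      have h2 : y ∉ (supp i).erase x := fun h' => (mem_sdiff.mp (hj hy)).2 h'
      rwa [if_neg h2] at h1
  · rintro ⟨f, a⟩ hp ⟨f', a'⟩ hp' heq
    simp only [coe_filter, mem_product, mem_univ, and_true, Set.mem_ofPred_eq] at hp hp'
    obtain ⟨hf, hsat⟩ := hp
    obtain ⟨hf', hsat'⟩ := hp'
    have ha : a = a' := by
      have h1 := hsat x hi
      have h2 := hsat' x hi
      rw [Function.update_self] at h1 h2
      rw [h1, h2]
    subst ha
    have hff : f = f' := by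
      funext y
      by_cases hy : y ∈ (supp i).erase x
      · have hne : y ≠ x := (mem_erase.mp hy).1
        have hys : y ∈ supp i := (mem_erase.mp hy).2
        have h1 := hsat y hys
        have h2 := hsat' y hys
        rw [Function.update_of_ne hne] at h1 h2
        rw [h1, h2]
      · have := congrFun heq y
        simp only [hy, if_false] at this
        exact this
    rw [hff]

/-- **Rosenfeld's counting lemma.** -/
theorem rosenfeld (supp : ι → Finset X) (val : ι → X → A) [Nonempty A]
    (hne : ∀ i, (supp i).Nonempty)
    (hw : ∀ x : X, ∑ i ∈ univ.filter (fun i => x ∈ supp i),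
      (2 / (Fintype.card A : ℝ)) ^ ((supp i).card - 1) ≤ (Fintype.card A : ℝ) / 2) :
    ∃ R : X → A, ∀ i, ¬ ∀ x ∈ supp i, R x = val i x := by
  classical
  obtain ⟨a0⟩ := ‹Nonempty A›
  set q : ℝ := (Fintype.card A : ℝ) with hq
  have hq0 : 0 < q := by
    rw [hq]
    exact_mod_cast Fintype.card_pos_iff.mpr ⟨a0⟩
  let cnt : Finset X → ℝ := fun U => ((rGood supp val a0 U).card : ℝ)
  have key : ∀ U : Finset X, 0 < cnt U ∧ ∀ x, x ∉ U → q / 2 * cnt U ≤ cnt (insert x U) := by
    intro U
    induction U using Finset.strongInduction with
    | H U IH =>
      -- positivity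
      have hpos : 0 < cnt U := by
        rcases U.eq_empty_or_nonempty with rfl | ⟨x, hx⟩
        · have : (fun _ => a0) ∈ rGood supp val a0 ∅ := by
            rw [mem_rGood]
            refine ⟨fun _ _ => rfl, fun i hi _ => ?_⟩
            obtain ⟨y, hy⟩ := hne i
            exact absurd (hi hy) (notMem_empty y)
          have h1 : 0 < (rGood supp val a0 ∅).card := card_pos.mpr ⟨_, this⟩
          exact Nat.cast_pos.mpr h1
        · have hsub : U.erase x ⊂ U := erase_ssubset hx
          obtain ⟨h1, h2⟩ := IH _ hsub
          have h3 := h2 x (notMem_erase x U)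
          rw [insert_erase hx] at h3
          have : 0 < q / 2 * cnt (U.erase x) := by positivity
          linarith
      -- chain inequality
      have hchain : ∀ D : Finset X, D ⊆ U → (q / 2) ^ D.card * cnt (U \ D) ≤ cnt U := by
        intro D
        induction D using Finset.induction_on with
        | empty =>
          intro _
          simp
        | insert y D' hy ih =>
          intro hD
          have hyU : y ∈ U := hD (mem_insert_self y D')
          have hD' : D' ⊆ U := (subset_insert y D').trans hD
          have h1 := ih hD'
          set U2 := U \ insert y D' with hU2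
          have hU2sub : U2 ⊂ U := by
            refine ⟨sdiff_subset, fun h => ?_⟩
            have := h hyU
            simp [hU2] at this
          have hyU2 : y ∉ U2 := by simp [hU2]
          have h2 := (IH U2 hU2sub).2 y hyU2
          have h3 : insert y U2 = U \ D' := by
            ext z
            simp only [hU2, mem_insert, mem_sdiff, not_or]
            constructor
            · rintro (rfl | ⟨hz1, hz2, hz3⟩)
              · exact ⟨hyU, hy⟩
              · exact ⟨hz1, hz3⟩
            · rintro ⟨hz1, hz2⟩
              by_cases hzy : z = y
              · exact Or.inl hzy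
              · exact Or.inr ⟨hz1, hzy, hz2⟩
          rw [h3] at h2
          rw [card_insert_of_notMem hy, pow_succ, mul_assoc]
          calc (q / 2) ^ D'.card * (q / 2 * cnt U2) ≤ (q / 2) ^ D'.card * cnt (U \ D') :=
                mul_le_mul_of_nonneg_left h2 (by positivity)
            _ ≤ cnt U := h1
      refine ⟨hpos, fun x hx => ?_⟩
      -- the pairs
      set P := rGood supp val a0 U ×ˢ (univ : Finset A) with hP
      have hPcard : (P.card : ℝ) = cnt U * q := by
        rw [hP, card_product, card_univ]
        push_cast
        rfl
      set I := univ.filter (fun i => x ∈ supp i ∧ supp i ⊆ insert x U) with hI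
      let Bad : ι → Finset ((X → A) × A) := fun i =>
        P.filter fun p => ∀ y ∈ supp i, Function.update p.1 x p.2 y = val i y
      have hcover : P ⊆ (P.filter fun p => Function.update p.1 x p.2 ∈
          rGood supp val a0 (insert x U)) ∪ I.biUnion Bad := by
        rintro ⟨f, a⟩ hp
        by_cases hgood : Function.update f x a ∈ rGood supp val a0 (insert x U)
        · exact mem_union_left _ (mem_filter.mpr ⟨hp, hgood⟩)
        · refine mem_union_right _ ?_
          have hf : f ∈ rGood supp val a0 U := (mem_product.mp hp).1
          obtain ⟨hf1, hf2⟩ := mem_rGood.mp hf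
          rw [mem_rGood] at hgood
          have h1 : ∀ y, y ∉ insert x U → Function.update f x a y = a0 := by
            intro y hy
            have hyx : y ≠ x := fun h => hy (h ▸ mem_insert_self _ _)
            rw [Function.update_of_ne hyx]
            exact hf1 y fun h => hy (mem_insert_of_mem h)
          have h2 : ∃ i, supp i ⊆ insert x U ∧ ∀ y ∈ supp i, Function.update f x a y = val i y := by
            by_contra hcon
            push Not at hcon
            refine hgood ⟨h1, fun i hi hsat => ?_⟩
            obtain ⟨y, hy, hy'⟩ := hcon i hi
            exact hy' (hsat y hy)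
          obtain ⟨i, hi1, hi2⟩ := h2
          have hxi : x ∈ supp i := by
            by_contra hxi
            refine hf2 i (fun y hy => ?_) fun y hy => ?_
            · have hyx : y ≠ x := fun h => hxi (h ▸ hy)
              exact (mem_insert.mp (hi1 hy)).resolve_left hyx
            · have hyx : y ≠ x := fun h => hxi (h ▸ hy)
              have := hi2 y hy
              rwa [Function.update_of_ne hyx] at this
          refine mem_biUnion.mpr ⟨i, mem_filter.mpr ⟨mem_univ _, hxi, hi1⟩, ?_⟩
          exact mem_filter.mpr ⟨hp, hi2⟩
      have hP1 : ((P.filter fun p => Function.update p.1 x p.2 ∈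
          rGood supp val a0 (insert x U)).card : ℝ) ≤ cnt (insert x U) := by
        have : (P.filter fun p => Function.update p.1 x p.2 ∈
            rGood supp val a0 (insert x U)).card ≤ (rGood supp val a0 (insert x U)).card := by
          refine Finset.card_le_card_of_injOn (fun p => Function.update p.1 x p.2) ?_ ?_
          · intro p hp
            exact (mem_filter.mp hp).2
          · rintro ⟨f, a⟩ hp ⟨f', a'⟩ hp' heq
            have hf := (mem_product.mp (mem_filter.mp hp).1).1
            have hf' := (mem_product.mp (mem_filter.mp hp').1).1
            simp only at hf hf' heq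
            have h1 : f x = a0 := (mem_rGood.mp hf).1 x hx
            have h2 : f' x = a0 := (mem_rGood.mp hf').1 x hx
            have ha : a = a' := by
              have := congrFun heq x
              simpa using this
            subst ha
            have : f = f' := by
              funext y
              by_cases hy : y = x
              · rw [hy, h1, h2]
              · have := congrFun heq y
                rwa [Function.update_of_ne hy, Function.update_of_ne hy] at this
            rw [this]
        exact Nat.cast_le.mpr this
      have hBad : ∀ i ∈ I, ((Bad i).card : ℝ) ≤ cnt U * (2 / q) ^ ((supp i).card - 1) := by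
        intro i hi
        have hi' := (mem_filter.mp hi).2
        have h1 : (Bad i).card ≤ (rGood supp val a0 (U \ (supp i).erase x)).card :=
          rosenfeld_bad_count supp val a0 U x i hi'.1
        have hDsub : (supp i).erase x ⊆ U := by
          intro y hy
          have hy1 := mem_erase.mp hy
          exact (mem_insert.mp (hi'.2 hy1.2)).resolve_left hy1.1
        have h2 := hchain _ hDsub
        rw [card_erase_of_mem hi'.1] at h2
        have h3 : ((Bad i).card : ℝ) ≤ cnt (U \ (supp i).erase x) := Nat.cast_le.mpr h1
        have hne2 : (2 / q) ^ ((supp i).card - 1) * (q / 2) ^ ((supp i).card - 1) = 1 := by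
          rw [← mul_pow]
          have : 2 / q * (q / 2) = 1 := by field_simp
          rw [this, one_pow]
        calc ((Bad i).card : ℝ) ≤ cnt (U \ (supp i).erase x) := h3
          _ = (2 / q) ^ ((supp i).card - 1) * ((q / 2) ^ ((supp i).card - 1) *
                cnt (U \ (supp i).erase x)) := by
              rw [← mul_assoc, hne2, one_mul]
          _ ≤ (2 / q) ^ ((supp i).card - 1) * cnt U :=
              mul_le_mul_of_nonneg_left h2 (by positivity)
          _ = cnt U * (2 / q) ^ ((supp i).card - 1) := mul_comm _ _
      have hsum : ∑ i ∈ I, cnt U * (2 / q) ^ ((supp i).card - 1) ≤ cnt U * (q / 2) := by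
        rw [← mul_sum]
        refine mul_le_mul_of_nonneg_left ?_ hpos.le
        refine le_trans ?_ (hw x)
        refine sum_le_sum_of_subset_of_nonneg ?_ (fun i _ _ => by positivity)
        intro i hi
        exact mem_filter.mpr ⟨mem_univ _, (mem_filter.mp hi).2.1⟩
      have htotal : (P.card : ℝ) ≤ cnt (insert x U) + cnt U * (q / 2) := by
        have h1 : P.card ≤ (P.filter fun p => Function.update p.1 x p.2 ∈
            rGood supp val a0 (insert x U)).card + (I.biUnion Bad).card :=
          (card_le_card hcover).trans (card_union_le _ _)
        have h2 : (I.biUnion Bad).card ≤ ∑ i ∈ I, (Bad i).card := card_biUnion_le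
        have h3 : ((I.biUnion Bad).card : ℝ) ≤ ∑ i ∈ I, ((Bad i).card : ℝ) := by
          exact_mod_cast h2
        have h4 : ∑ i ∈ I, ((Bad i).card : ℝ) ≤ ∑ i ∈ I, cnt U * (2 / q) ^ ((supp i).card - 1) :=
          sum_le_sum hBad
        have h5 : (P.card : ℝ) ≤ ((P.filter fun p => Function.update p.1 x p.2 ∈
            rGood supp val a0 (insert x U)).card : ℝ) + ((I.biUnion Bad).card : ℝ) := by
          exact_mod_cast h1
        linarith
      rw [hPcard] at htotal
      linarith
  obtain ⟨h1, -⟩ := key univ
  have h2 : 0 < (rGood supp val a0 univ).card := Nat.cast_pos.mp h1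
  obtain ⟨R, hR⟩ := card_pos.mp h2
  exact ⟨R, fun i => (mem_rGood.mp hR).2 i (subset_univ _)⟩

end Rosenfeld

end Vale.Agent.Lib.P090
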