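import Vale.Agent.Lib.P090.Graph
import Vale.Agent.Lib.P090.Rosenfeld

/-!
# Selecting a sparse subgraph that avoids a given finite set of words
-/

set_option linter.unusedSectionVars false

namespace Vale.Agent.Lib.P090

open Finset

/-- The colors: three classes of 152 colors each. -/
abbrev Color : Type := Fin 3 × Fin 152

variable (G : CG Color)

/-- The requirements imposed on the assignment by reading a word with given orientations. -/
def pathReq : G.V → List Color → List Bool → List ((G.V × Fin 3) × Fin 152)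
  | v, c :: W, b :: bs =>
    ((if b then (v, c.1) else (G.act c v, c.1)), c.2) :: pathReq (G.act c v) W bs
  | _, _, _ => []

/-- An edge is kept when one of its endpoints selects it. -/
def keptOf (R : G.V × Fin 3 → Fin 152) (v : G.V) (c : Color) : Prop :=
  R (v, c.1) = c.2 ∨ R (G.act c v, c.1) = c.2

variable {G}

theorem length_pathReq (v : G.V) (W : List Color) (bs : List Bool) (h : bs.length = W.length) :
    (pathReq G v W bs).length = W.length := by
  induction W generalizing v bs with
  | nil => cases bs <;> simp [pathReq]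
  | cons c W ih =>
    cases bs with
    | nil => simp at h
    | cons b bs =>
      simp only [List.length_cons, Nat.add_right_cancel_iff] at h
      simp [pathReq, ih _ _ h]

theorem mem_pathReq {v : G.V} {W : List Color} {bs : List Bool}
    {q : (G.V × Fin 3) × Fin 152} (hq : q ∈ pathReq G v W bs) :
    ∃ a d b, W = a ++ d :: b ∧ q.2 = d.2 ∧ q.1.2 = d.1 ∧
      (q.1.1 = walk G.act v a ∨ q.1.1 = walk G.act v (a ++ [d])) := by
  induction W generalizing v bs with
  | nil => cases bs <;> simp [pathReq] at hq
  | cons c W ih =>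
    cases bs with
    | nil => simp [pathReq] at hq
    | cons b bs =>
      simp only [pathReq, List.mem_cons] at hq
      rcases hq with rfl | hq
      · refine ⟨[], c, W, rfl, rfl, ?_, ?_⟩
        · cases b <;> rfl
        · cases b
          · right; rfl
          · left; rfl
      · obtain ⟨a, d, b', h1, h2, h3, h4⟩ := ih hq
        exact ⟨c :: a, d, b', by rw [h1]; rfl, h2, h3, h4⟩

theorem exists_orient {R : G.V × Fin 3 → Fin 152} {v : G.V} {W : List Color}
    (h : Reads (keptOf G R) G.act v W) :
    ∃ bs : List Bool, bs.length = W.length ∧ ∀ q ∈ pathReq G v W bs, R q.1 = q.2 := by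
  induction W generalizing v with
  | nil => exact ⟨[], rfl, by simp [pathReq]⟩
  | cons c W ih =>
    obtain ⟨h1, h2⟩ := h
    obtain ⟨bs, hbs, hsat⟩ := ih h2
    by_cases hb : R (v, c.1) = c.2
    · refine ⟨true :: bs, by simp [hbs], ?_⟩
      intro q hq
      simp only [pathReq, List.mem_cons] at hq
      rcases hq with rfl | hq
      · exact hb
      · exact hsat q hq
    · refine ⟨false :: bs, by simp [hbs], ?_⟩
      intro q hq
      simp only [pathReq, List.mem_cons] at hq
      rcases hq with rfl | hq
      · exact h1.resolve_left hb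
      · exact hsat q hq

/-- Along a short reduced word the requirements concern distinct variables. -/
theorem nodup_pathReq {g : ℕ} (hg : Gir G g) {R : G.V × Fin 3 → Fin 152} {v : G.V}
    {W : List Color} {bs : List Bool} (hW : Red W) (hl : W.length < g)
    (hsat : ∀ q ∈ pathReq G v W bs, R q.1 = q.2) :
    ((pathReq G v W bs).map Prod.fst).Nodup := by
  induction W generalizing v bs with
  | nil => cases bs <;> simp [pathReq]
  | cons c W ih =>
    cases bs with
    | nil => simp [pathReq]
    | cons b bs =>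
      have hsat' : ∀ q ∈ pathReq G (G.act c v) W bs, R q.1 = q.2 := fun q hq =>
        hsat q (by simp only [pathReq, List.mem_cons]; exact Or.inr hq)
      have hW' : Red W := Red.tail' hW
      have hl' : W.length < g := by simp at hl; omega
      simp only [pathReq, List.map_cons, List.nodup_cons]
      refine ⟨?_, ih hW' hl' hsat'⟩
      intro hmem
      obtain ⟨q, hq, hqx⟩ := List.mem_map.mp hmem
      obtain ⟨a, d, b', h1, h2, h3, h4⟩ := mem_pathReq hq
      have hRed : Red (c :: (a ++ d :: b')) := h1 ▸ hW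
      have hlen : (c :: (a ++ d :: b')).length < g := h1 ▸ hl
      simp only [List.length_cons, List.length_append] at hlen
      -- closed words
      have hclosed1 : walk G.act (G.act c v) a ≠ v := by
        have hr' : Red (c :: a) := by
          have : c :: (a ++ d :: b') = (c :: a) ++ (d :: b') := rfl
          rw [this] at hRed
          exact hRed.left_of_append
        exact hg v (c :: a) hr' (by simp) (by simp; omega)
      have hclosed2 : walk G.act (G.act c v) (a ++ [d]) ≠ v := by
        have hr' : Red (c :: (a ++ [d])) := by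
          have : c :: (a ++ d :: b') = (c :: (a ++ [d])) ++ b' := by simp
          rw [this] at hRed
          exact hRed.left_of_append
        exact hg v (c :: (a ++ [d])) hr' (by simp) (by simp; omega)
      have hclosed3 : walk G.act (G.act c v) (a ++ [d]) ≠ G.act c v := by
        have hr' : Red (a ++ [d]) := by
          have : c :: (a ++ d :: b') = c :: ((a ++ [d]) ++ b') := by simp
          rw [this] at hRed
          exact (Red.tail' hRed).left_of_append
        exact hg (G.act c v) (a ++ [d]) hr' (by simp) (by simp; omega)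
      cases b with
      | true =>
        -- head variable is `(v, c.1)`
        have hqv : q.1.1 = v := by
          rw [hqx]; rfl
        rcases h4 with h4 | h4
        · exact hclosed1 (h4.symm.trans hqv)
        · exact hclosed2 (h4.symm.trans hqv)
      | false =>
        have hqv : q.1.1 = G.act c v := by
          rw [hqx]; rfl
        have hqc : q.1.2 = c.1 := by
          rw [hqx]; rfl
        rcases h4 with h4 | h4
        · cases a with
          | nil =>
            -- the consecutive letter case
            have hv1 : R q.1 = q.2 := hsat' q hq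
            have hv2 : R (G.act c v, c.1) = c.2 :=
              hsat ((G.act c v, c.1), c.2) (by simp [pathReq])
            have hq1 : q.1 = (G.act c v, c.1) := Prod.ext hqv hqc
            rw [hq1, hv2] at hv1
            have hdc : c = d := Prod.ext (hqc.symm.trans h3) (hv1.trans h2)
            exact (red_cons_iff.mp hRed).1 hdc
          | cons e a' =>
            have hr' : Red (e :: a') := by
              have : c :: ((e :: a') ++ d :: b') = c :: ((e :: a') ++ (d :: b')) := rfl
              rw [this] at hRed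
              exact (Red.tail' hRed).left_of_append
            exact hg (G.act c v) (e :: a') hr' (by simp)
              (by simp at hlen ⊢; omega) (h4.symm.trans hqv)
        · exact hclosed3 (h4.symm.trans hqv)

/-! ### The constraints -/

section Main

variable (G)
variable (ℓ : ℕ) (𝓦 : Finset (List Color))

/-- The data of a path constraint. -/
abbrev PathData : Type := G.V × ↥𝓦 × List.Vector Bool ℓ

/-- The requirements of a path constraint. -/
def pReq (p : PathData G ℓ 𝓦) : List ((G.V × Fin 3) × Fin 152) :=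
  pathReq G p.1 p.2.1.1 p.2.2.1

/-- The index of path constraints: those with distinct variables. -/
abbrev PathIdx : Type := {p : PathData G ℓ 𝓦 // ((pReq G ℓ 𝓦 p).map Prod.fst).Nodup}

/-- The index of degree constraints. -/
abbrev DegIdx : Type := G.V × {C : Finset Color // C.card = 17}

/-- The support of a path constraint. -/
def pSupp (p : PathIdx G ℓ 𝓦) : Finset (G.V × Fin 3) :=
  ((pReq G ℓ 𝓦 p.1).map Prod.fst).toFinset

open Classical in
/-- The values of a path constraint. -/
noncomputable def pVal (p : PathIdx G ℓ 𝓦) (x : G.V × Fin 3) : Fin 152 :=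
  if h : ∃ a, (x, a) ∈ pReq G ℓ 𝓦 p.1 then h.choose else 0

/-- The support of a degree constraint. -/
def dSupp (d : DegIdx G) : Finset (G.V × Fin 3) :=
  d.2.1.image fun c => (G.act c d.1, c.1)

open Classical in
/-- The values of a degree constraint. -/
noncomputable def dVal (d : DegIdx G) (x : G.V × Fin 3) : Fin 152 :=
  if h : ∃ c ∈ d.2.1, (G.act c d.1, c.1) = x then h.choose.2 else 0

variable {G ℓ 𝓦}

theorem card_pSupp (h𝓦 : ∀ W ∈ 𝓦, W.length = ℓ) (p : PathIdx G ℓ 𝓦) :
    (pSupp G ℓ 𝓦 p).card = ℓ := by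
  unfold pSupp
  rw [List.toFinset_card_of_nodup p.2, List.length_map, pReq, length_pathReq]
  · exact h𝓦 _ p.1.2.1.2
  · rw [p.1.2.2.2, h𝓦 _ p.1.2.1.2]

theorem card_dSupp {g : ℕ} (hg : Gir G g) (hg3 : 3 ≤ g) (d : DegIdx G) :
    (dSupp G d).card = 17 := by
  unfold dSupp
  rw [card_image_of_injOn, d.2.2]
  intro c _ c' _ hcc
  by_contra hne
  have h1 : G.act c d.1 = G.act c' d.1 := congrArg Prod.fst hcc
  have hr : Red [c, c'] := red_cons_iff.mpr ⟨hne, List.isChain_singleton c'⟩
  refine hg d.1 [c, c'] hr (by simp) (by simp; omega) ?_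
  change G.act c' (G.act c d.1) = d.1
  rw [h1, G.act_act]

theorem count_path (h𝓦 : ∀ W ∈ 𝓦, W.length = ℓ) (x : G.V × Fin 3)
    (F : Finset (PathIdx G ℓ 𝓦)) (hF : ∀ p ∈ F, x ∈ pSupp G ℓ 𝓦 p) :
    F.card ≤ (ℓ + 1) * (𝓦.card * 2 ^ ℓ) := by
  let Φ : ℕ × ↥𝓦 × List.Vector Bool ℓ → PathData G ℓ 𝓦 :=
    fun t => (walk G.act x.1 (t.2.1.1.take t.1).reverse, t.2.1, t.2.2)
  have hsub : F.image Subtype.val ⊆
      ((range (ℓ + 1)) ×ˢ (univ : Finset ↥𝓦) ×ˢ (univ : Finset (List.Vector Bool ℓ))).image Φ := by
    intro p hp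
    obtain ⟨p', hp', rfl⟩ := mem_image.mp hp
    have hx := hF p' hp'
    unfold pSupp at hx
    rw [List.mem_toFinset] at hx
    obtain ⟨q, hq, hqx⟩ := List.mem_map.mp hx
    obtain ⟨a, d, b, h1, h2, h3, h4⟩ := mem_pathReq hq
    have hlenW : p'.1.2.1.1.length = ℓ := h𝓦 _ p'.1.2.1.2
    have hlen : a.length + b.length + 1 = ℓ := by
      rw [← hlenW, h1]; simp; omega
    rw [mem_image]
    rcases h4 with h4 | h4
    · refine ⟨(a.length, p'.1.2.1, p'.1.2.2), ?_, ?_⟩
      · simp only [mem_product, mem_range, mem_univ, and_true]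
        omega
      · refine Prod.ext ?_ rfl
        change walk G.act x.1 (p'.1.2.1.1.take a.length).reverse = p'.1.1
        rw [h1, List.take_left', ← hqx, h4, walk_reverse G.act_act]
        rfl
    · refine ⟨(a.length + 1, p'.1.2.1, p'.1.2.2), ?_, ?_⟩
      · simp only [mem_product, mem_range, mem_univ, and_true]
        omega
      · refine Prod.ext ?_ rfl
        change walk G.act x.1 (p'.1.2.1.1.take (a.length + 1)).reverse = p'.1.1
        have htake : (a ++ d :: b).take (a.length + 1) = a ++ [d] := by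
          have : a ++ d :: b = (a ++ [d]) ++ b := by simp
          rw [this, List.take_left']
          simp
        rw [h1, htake, ← hqx, h4, walk_reverse G.act_act]
  have hcard := card_le_card hsub
  rw [card_image_of_injective _ Subtype.val_injective] at hcard
  refine hcard.trans (card_image_le.trans ?_)
  rw [card_product, card_product, card_range, card_univ, card_univ, Fintype.card_coe, card_vector]
  simp

theorem count_deg_sub (x : G.V × Fin 3) (F : Finset (DegIdx G)) (hF : ∀ d ∈ F, x ∈ dSupp G d)
    (U : Finset (Fin 152)) (hU : ∀ a, a ∈ U) (T : Finset (Finset Color))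
    (hT : ∀ D : Finset Color, D.card = 16 → D ∈ T) :
    F.image (fun d => (d.1, d.2.1)) ⊆ (U ×ˢ T).image
      (fun t => (G.act (x.2, t.1) x.1, insert (x.2, t.1) t.2)) := by
  refine Finset.image_subset_iff.mpr fun d hd => ?_
  have hx := hF d hd
  unfold dSupp at hx
  rw [mem_image] at hx
  obtain ⟨c, hc, hcx⟩ := hx
  have hc1 : c.1 = x.2 := congrArg Prod.snd hcx
  have hc2 : G.act c d.1 = x.1 := congrArg Prod.fst hcx
  have hcc : c = (x.2, c.2) := Prod.ext hc1 rfl
  rw [mem_image]
  refine ⟨(c.2, d.2.1.erase c), ?_, ?_⟩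
  · simp only [mem_product]
    refine ⟨hU _, hT _ ?_⟩
    rw [card_erase_of_mem hc, d.2.2]
  · refine Prod.ext ?_ ?_
    · change G.act (x.2, c.2) x.1 = d.1
      rw [← hcc, ← hc2, G.act_act]
    · change insert (x.2, c.2) (d.2.1.erase c) = d.2.1
      rw [← hcc, insert_erase hc]

theorem count_deg (x : G.V × Fin 3) (F : Finset (DegIdx G)) (hF : ∀ d ∈ F, x ∈ dSupp G d) :
    F.card ≤ 152 * Nat.choose 456 16 := by
  have hsub := count_deg_sub x F hF univ (fun a => mem_univ a) (powersetCard 16 univ)
    (fun D hD => mem_powersetCard.mpr ⟨subset_univ _, hD⟩)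
  have hcard := card_le_card hsub
  have hinj : Function.Injective (fun d : DegIdx G => (d.1, d.2.1)) := by
    intro d d' h
    have h' : (d.1, d.2.1) = (d'.1, d'.2.1) := h
    obtain ⟨h1, h2⟩ := Prod.mk.inj h'
    exact Prod.ext h1 (Subtype.ext h2)
  rw [card_image_of_injective _ hinj] at hcard
  refine hcard.trans (card_image_le.trans ?_)
  have hC : Fintype.card Color = 456 := by simp [Fintype.card_prod]
  rw [card_product, card_powersetCard, card_univ, card_univ, hC, Fintype.card_fin]

theorem deg_numeric : ((152 * Nat.choose 456 16 : ℕ) : ℝ) * (2 / 152) ^ 16 ≤ 38 := by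
  have h := Nat.choose_le_pow_div (α := ℝ) 16 456
  have h16 : ((Nat.factorial 16 : ℕ) : ℝ) = 20922789888000 := by
    norm_num [Nat.factorial]
  rw [h16] at h
  push_cast
  have h2 : (0 : ℝ) ≤ (2 / 152) ^ 16 := by positivity
  calc (152 : ℝ) * (Nat.choose 456 16 : ℝ) * (2 / 152) ^ 16
      ≤ 152 * (((456 : ℕ) : ℝ) ^ 16 / 20922789888000) * (2 / 152) ^ 16 := by
        gcongr
    _ ≤ 38 := by norm_num

theorem pVal_sat {R : G.V × Fin 3 → Fin 152} (p : PathIdx G ℓ 𝓦)
    (hsat : ∀ q ∈ pReq G ℓ 𝓦 p.1, R q.1 = q.2) : ∀ x ∈ pSupp G ℓ 𝓦 p, R x = pVal G ℓ 𝓦 p x := by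
  intro x hx
  unfold pSupp at hx
  rw [List.mem_toFinset] at hx
  obtain ⟨q, hq, hqx⟩ := List.mem_map.mp hx
  have hex : ∃ a, (x, a) ∈ pReq G ℓ 𝓦 p.1 := ⟨q.2, by
    have : (x, q.2) = q := Prod.ext hqx.symm rfl
    rw [this]
    exact hq⟩
  unfold pVal
  rw [dif_pos hex]
  exact hsat _ hex.choose_spec

open Classical in
/-- A symmetric kept set of edges with all degrees between 3 and 19. -/
def KeptOK (G : CG Color) (K : G.V → Color → Prop) : Prop :=
  (∀ v c, K v c → K (G.act c v) c) ∧
    ∀ v, 3 ≤ (univ.filter (K v)).card ∧ (univ.filter (K v)).card ≤ 19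

/-- **Selection**: a sparse symmetric subgraph of large girth avoiding given words. -/
theorem exists_kept {g : ℕ} (hg : Gir G g) (hg3 : 3 ≤ g) {ℓ : ℕ} (hℓ : 1 ≤ ℓ) (hgℓ : ℓ < g)
    (𝓦 : Finset (List Color)) (h𝓦 : ∀ W ∈ 𝓦, W.length = ℓ ∧ Red W)
    (hcount : (((ℓ + 1) * (𝓦.card * 2 ^ ℓ) : ℕ) : ℝ) * (2 / 152) ^ (ℓ - 1) ≤ 38) :
    ∃ K : G.V → Color → Prop, KeptOK G K ∧ ∀ v W, W ∈ 𝓦 → ¬ Reads K G.act v W := by
  have h𝓦1 : ∀ W ∈ 𝓦, W.length = ℓ := fun W hW => (h𝓦 W hW).1
  let supp : PathIdx G ℓ 𝓦 ⊕ DegIdx G → Finset (G.V × Fin 3) :=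
    Sum.elim (pSupp G ℓ 𝓦) (dSupp G)
  let val : PathIdx G ℓ 𝓦 ⊕ DegIdx G → (G.V × Fin 3) → Fin 152 :=
    Sum.elim (pVal G ℓ 𝓦) (dVal G)
  have hne : ∀ i, (supp i).Nonempty := by
    rintro (p | d)
    · apply card_pos.mp
      change 0 < (pSupp G ℓ 𝓦 p).card
      rw [card_pSupp h𝓦1 p]
      omega
    · apply card_pos.mp
      change 0 < (dSupp G d).card
      rw [card_dSupp hg hg3 d]
      norm_num
  have hcardA : (Fintype.card (Fin 152) : ℝ) = 152 := by simp
  have hw : ∀ x : G.V × Fin 3, ∑ i ∈ univ.filter (fun i => x ∈ supp i),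
      (2 / (Fintype.card (Fin 152) : ℝ)) ^ ((supp i).card - 1) ≤
        (Fintype.card (Fin 152) : ℝ) / 2 := by
    intro x
    rw [hcardA, sum_filter, Fintype.sum_sum_type]
    have h1 : ∑ p : PathIdx G ℓ 𝓦, (if x ∈ supp (Sum.inl p) then
        ((2 : ℝ) / 152) ^ ((supp (Sum.inl p)).card - 1) else 0) ≤ 38 := by
      have : ∑ p : PathIdx G ℓ 𝓦, (if x ∈ supp (Sum.inl p) then
          ((2 : ℝ) / 152) ^ ((supp (Sum.inl p)).card - 1) else 0) =
          ∑ p ∈ univ.filter (fun p : PathIdx G ℓ 𝓦 => x ∈ pSupp G ℓ 𝓦 p),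
            ((2 : ℝ) / 152) ^ (ℓ - 1) := by
        rw [sum_filter]
        refine sum_congr rfl fun p _ => ?_
        change (if x ∈ pSupp G ℓ 𝓦 p then
          ((2 : ℝ) / 152) ^ ((pSupp G ℓ 𝓦 p).card - 1) else 0) = _
        rw [card_pSupp h𝓦1 p]
      rw [this, sum_const, nsmul_eq_mul]
      refine le_trans ?_ hcount
      refine mul_le_mul_of_nonneg_right ?_ (by positivity)
      exact Nat.cast_le.mpr (count_path h𝓦1 x _ fun p hp => (mem_filter.mp hp).2)
    have h2 : ∑ d : DegIdx G, (if x ∈ supp (Sum.inr d) then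
        ((2 : ℝ) / 152) ^ ((supp (Sum.inr d)).card - 1) else 0) ≤ 38 := by
      have : ∑ d : DegIdx G, (if x ∈ supp (Sum.inr d) then
          ((2 : ℝ) / 152) ^ ((supp (Sum.inr d)).card - 1) else 0) =
          ∑ d ∈ univ.filter (fun d : DegIdx G => x ∈ dSupp G d),
            ((2 : ℝ) / 152) ^ 16 := by
        rw [sum_filter]
        refine sum_congr rfl fun d _ => ?_
        change (if x ∈ dSupp G d then
          ((2 : ℝ) / 152) ^ ((dSupp G d).card - 1) else 0) = _
        rw [card_dSupp hg hg3 d]
      rw [this, sum_const, nsmul_eq_mul]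
      refine le_trans ?_ deg_numeric
      refine mul_le_mul_of_nonneg_right ?_ (by positivity)
      exact Nat.cast_le.mpr (count_deg x _ fun d hd => (mem_filter.mp hd).2)
    have h3 : ((152 : ℝ) / 2) = 38 + 38 := by norm_num
    rw [h3]
    exact add_le_add h1 h2
  obtain ⟨R, hR⟩ := rosenfeld supp val hne hw
  have hRp : ∀ p : PathIdx G ℓ 𝓦, ¬ ∀ x ∈ pSupp G ℓ 𝓦 p, R x = pVal G ℓ 𝓦 p x := by
    intro p h
    refine hR (Sum.inl p) ?_
    simp only [supp, val, Sum.elim_inl]
    exact h
  classical
  refine ⟨keptOf G R, ⟨?_, ?_⟩, ?_⟩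
  · intro v c hvc
    rcases hvc with h | h
    · right
      rwa [G.act_act]
    · left
      exact h
  · intro v
    -- own colors
    let own : Finset Color := univ.image fun j : Fin 3 => (j, R (v, j))
    have hownc : own.card = 3 := by
      rw [card_image_of_injective _ (fun j j' h => congrArg Prod.fst h)]
      simp
    have hown : own ⊆ univ.filter (keptOf G R v) := by
      intro c hc
      obtain ⟨j, -, rfl⟩ := mem_image.mp hc
      exact mem_filter.mpr ⟨mem_univ _, Or.inl rfl⟩
    refine ⟨?_, ?_⟩
    · have h0 := card_le_card hown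
      omega
    · by_contra hcon
      have hcon' : 20 ≤ (univ.filter (keptOf G R v)).card := by omega
      let other : Finset Color := univ.filter fun c => R (G.act c v, c.1) = c.2
      have hsub : univ.filter (keptOf G R v) ⊆ own ∪ other := by
        intro c hc
        rcases (mem_filter.mp hc).2 with h | h
        · refine mem_union_left _ (mem_image.mpr ⟨c.1, mem_univ _, ?_⟩)
          exact Prod.ext rfl h
        · exact mem_union_right _ (mem_filter.mpr ⟨mem_univ _, h⟩)
      have hother : 17 ≤ other.card := by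
        have h1 := (card_le_card hsub).trans (card_union_le _ _)
        omega
      obtain ⟨C, hC, hCc⟩ := exists_subset_card_eq hother
      refine hR (Sum.inr (v, ⟨C, hCc⟩)) ?_
      intro x hx
      change x ∈ dSupp G (v, ⟨C, hCc⟩) at hx
      change R x = dVal G (v, ⟨C, hCc⟩) x
      unfold dSupp at hx
      rw [mem_image] at hx
      have hex : ∃ c ∈ C, (G.act c v, c.1) = x := by
        obtain ⟨c, hc, hcx⟩ := hx
        exact ⟨c, hc, hcx⟩
      unfold dVal
      rw [dif_pos hex]
      have hs := hex.choose_spec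
      have h1 := (mem_filter.mp (hC hs.1)).2
      exact (congrArg R hs.2).symm.trans h1
  · intro v W hW hreads
    obtain ⟨bs, hbs, hsat⟩ := exists_orient hreads
    have hWl := (h𝓦 W hW).1
    have hnd := nodup_pathReq hg (h𝓦 W hW).2 (by omega) hsat
    exact hRp ⟨(v, ⟨W, hW⟩, ⟨bs, hbs.trans hWl⟩), hnd⟩ (pVal_sat _ hsat)

end Main

end Vale.Agent.Lib.P090
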