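import Vale.Agent.Lib.P090.Chain

/-!
# The truncated word distance on the base graph and the bump function
-/

set_option linter.unusedSectionVars false

namespace Vale.Agent.Lib.P090

variable {C : Type} [DecidableEq C] {B : CG C}

/-- The word distance in `B` truncated at `2 r`. -/
noncomputable def wm (B : CG C) (r : ℕ) (a b : B.V) : ℕ :=
  sInf {m | m = 2 * r ∨ ∃ w : List C, w.length = m ∧ walk B.act a w = b}

theorem wm_le_two (r : ℕ) (a b : B.V) : wm B r a b ≤ 2 * r :=
  Nat.sInf_le (Or.inl rfl)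

theorem wm_le_length (r : ℕ) (a : B.V) (w : List C) : wm B r a (walk B.act a w) ≤ w.length :=
  Nat.sInf_le (Or.inr ⟨w, rfl, rfl⟩)

theorem wm_spec {r : ℕ} {a b : B.V} (h : wm B r a b < 2 * r) :
    ∃ w : List C, w.length = wm B r a b ∧ walk B.act a w = b := by
  have hmem : wm B r a b ∈ {m | m = 2 * r ∨ ∃ w : List C, w.length = m ∧ walk B.act a w = b} :=
    Nat.sInf_mem ⟨2 * r, Or.inl rfl⟩
  rcases hmem with h1 | h1
  · omega
  · exact h1

theorem wm_self (r : ℕ) (a : B.V) : wm B r a a = 0 := by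
  have := wm_le_length (B := B) r a []
  simpa using this

theorem wm_act_right (r : ℕ) (a b : B.V) (c : C) : wm B r a (B.act c b) ≤ wm B r a b + 1 := by
  by_cases h : wm B r a b < 2 * r
  · obtain ⟨w, hw1, hw2⟩ := wm_spec h
    have := wm_le_length (B := B) r a (w ++ [c])
    rw [walk_append, walk_singleton, hw2] at this
    simp only [List.length_append, List.length_singleton] at this
    omega
  · have := wm_le_two (B := B) r a (B.act c b)
    omega

theorem wm_act_left (r : ℕ) (a b : B.V) (c : C) : wm B r (B.act c a) b ≤ wm B r a b + 1 := by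
  by_cases h : wm B r a b < 2 * r
  · obtain ⟨w, hw1, hw2⟩ := wm_spec h
    have := wm_le_length (B := B) r (B.act c a) (c :: w)
    rw [walk_cons, B.act_act, hw2] at this
    simp only [List.length_cons] at this
    omega
  · have := wm_le_two (B := B) r (B.act c a) b
    omega

theorem length_nf_le (l : List C) : (nf l).length ≤ l.length := by
  induction l with
  | nil => exact le_rfl
  | cons c l ih =>
    rw [nf_cons]
    have := length_redCons_le c (nf l)
    simp only [List.length_cons]
    omega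

theorem vld_iff {r : ℕ} {a b : B.V} : Vld B r a b ↔ wm B r a b < 2 * r := by
  constructor
  · rintro ⟨ρ, -, h1, rfl⟩
    exact lt_of_le_of_lt (wm_le_length r a ρ) h1
  · intro h
    obtain ⟨w, hw1, hw2⟩ := wm_spec h
    refine ⟨nf w, red_nf w, ?_, ?_⟩
    · have := length_nf_le w
      omega
    · rw [walk_nf B.act_act, hw2]

/-- The clamped bump function of the word distance. -/
noncomputable def phi (B : CG C) (r : ℕ) (a b : B.V) : ℝ :=
  max 0 (min 1 (2 - (wm B r a b : ℝ) / r))

theorem phi_nonneg (r : ℕ) (a b : B.V) : 0 ≤ phi B r a b := le_max_left _ _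

theorem phi_le_one (r : ℕ) (a b : B.V) : phi B r a b ≤ 1 :=
  max_le zero_le_one (min_le_left _ _)

theorem phi_self {r : ℕ} (a : B.V) : phi B r a a = 1 := by
  unfold phi
  rw [wm_self]
  norm_num

theorem phi_eq_zero {r : ℕ} (hr : 0 < r) {a b : B.V} (h : ¬ Vld B r a b) : phi B r a b = 0 := by
  rw [vld_iff, not_lt] at h
  unfold phi
  have hr' : (0 : ℝ) < r := by exact_mod_cast hr
  have h1 : (2 * r : ℝ) ≤ wm B r a b := by exact_mod_cast h
  have h2 : 2 - (wm B r a b : ℝ) / r ≤ 0 := by
    rw [sub_nonpos, le_div_iff₀ hr']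
    exact h1
  exact max_eq_left ((min_le_right _ _).trans h2)

theorem clamp_lip (x y : ℝ) : |max 0 (min 1 x) - max 0 (min 1 y)| ≤ |x - y| := by
  have key : ∀ u v : ℝ, u ≤ v → 0 ≤ max 0 (min 1 v) - max 0 (min 1 u) ∧
      max 0 (min 1 v) - max 0 (min 1 u) ≤ v - u := by
    intro u v h
    simp only [max_def, min_def]
    split_ifs <;> constructor <;> linarith
  rcases le_total x y with h | h
  · obtain ⟨h1, h2⟩ := key x y h
    rw [abs_sub_comm, abs_sub_comm x y, abs_of_nonneg h1, abs_of_nonneg (sub_nonneg.mpr h)]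
    exact h2
  · obtain ⟨h1, h2⟩ := key y x h
    rw [abs_of_nonneg h1, abs_of_nonneg (sub_nonneg.mpr h)]
    exact h2

theorem phi_lip {r : ℕ} (hr : 0 < r) {a b a' b' : B.V}
    (h1 : wm B r a b ≤ wm B r a' b' + 1) (h2 : wm B r a' b' ≤ wm B r a b + 1) :
    |phi B r a b - phi B r a' b'| ≤ 1 / r := by
  refine (clamp_lip _ _).trans ?_
  have hr' : (0 : ℝ) < r := by exact_mod_cast hr
  have h3 : (wm B r a b : ℝ) ≤ wm B r a' b' + 1 := by exact_mod_cast h1
  have h4 : (wm B r a' b' : ℝ) ≤ wm B r a b + 1 := by exact_mod_cast h2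
  have : 2 - (wm B r a b : ℝ) / r - (2 - (wm B r a' b' : ℝ) / r) =
      ((wm B r a' b' : ℝ) - wm B r a b) / r := by ring
  rw [this, abs_div, abs_of_pos hr']
  refine div_le_div_of_nonneg_right ?_ hr'.le
  rw [abs_le]
  constructor <;> linarith

theorem phi_lip_left {r : ℕ} (hr : 0 < r) (a b : B.V) (c : C) :
    |phi B r a b - phi B r (B.act c a) b| ≤ 1 / r := by
  refine phi_lip hr ?_ (wm_act_left r a b c)
  have := wm_act_left r (B.act c a) b c
  rwa [B.act_act] at this

theorem phi_lip_right {r : ℕ} (hr : 0 < r) (a b : B.V) (c : C) :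
    |phi B r a b - phi B r a (B.act c b)| ≤ 1 / r := by
  refine phi_lip hr ?_ (wm_act_right r a b c)
  have := wm_act_right r a (B.act c b) c
  rwa [B.act_act] at this

end Vale.Agent.Lib.P090
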