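import Vale.Agent.Lib.P090.Reduction
import Vale.Agent.Lib.P090.Selection
import Vale.Agent.Lib.P090.Chain
import Vale.Agent.Lib.P090.Cheeger
import Vale.Agent.Lib.P090.WordDist
import Vale.Agent.Lib.P090.Metric

/-!
# The uniformly discrete metric space
-/

set_option linter.unusedSectionVars false

namespace Vale.Agent.Lib.P090

noncomputable section

/-- The length of the spokes at level `n`. -/
def tN (n : ℕ) : ℕ := n + 8

/-- The scale of the bump functions at level `n`. -/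
def rN (n : ℕ) : ℕ := 1900 * (n + 8) ^ 2

/-- The depth of the tower at level `n`: some number that is at least `4 r`. -/
def dN (n : ℕ) : ℕ := Classical.choose (⟨4 * rN n, le_rfl⟩ : ∃ m, 4 * rN n ≤ m)

theorem dN_spec (n : ℕ) : 4 * rN n ≤ dN n :=
  Classical.choose_spec (⟨4 * rN n, le_rfl⟩ : ∃ m, 4 * rN n ≤ m)

/-- The hub graph at level `n`. -/
abbrev Bn (n : ℕ) : CG Color := tower cube (dN n)

/-- The graphs of the components at level `n`. -/
abbrev Gn (n k : ℕ) : CG Color := tower cube (dN n + k)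

/-- The components at level `n`: all sparse subgraphs of the covers of the hub graph. -/
abbrev Comp (n : ℕ) : Type := Σ k : ℕ, {K : (Gn n k).V → Color → Prop // KeptOK (Gn n k) K}

/-- The points of level `n`: hubs and deep points. -/
abbrev Pt (n : ℕ) : Type := (Bn n).V ⊕ Σ i : Comp n, (Gn n i.1).V

/-- Allowed moves at a point of level `n`. -/
def ptOk {n : ℕ} : Pt n → Color → Prop
  | Sum.inl _, _ => False
  | Sum.inr ⟨i, v⟩, c => i.2.1 v c

/-- Moves at level `n`. -/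
def ptMv {n : ℕ} (c : Color) : Pt n → Pt n
  | Sum.inl b => Sum.inl b
  | Sum.inr ⟨i, v⟩ => Sum.inr ⟨i, (Gn n i.1).act c v⟩

/-- The type of a point of level `n`. -/
def ptPr {n : ℕ} : Pt n → (Bn n).V
  | Sum.inl b => b
  | Sum.inr ⟨i, v⟩ => towerProj cube (dN n) i.1 v

theorem ptMv_mv {n : ℕ} (c : Color) (p : Pt n) : ptMv c (ptMv c p) = p := by
  rcases p with b | ⟨i, v⟩
  · rfl
  · change (Sum.inr ⟨i, (Gn n i.1).act c ((Gn n i.1).act c v)⟩ : Pt n) = _
    rw [(Gn n i.1).act_act]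

theorem ptOk_mv {n : ℕ} {p : Pt n} {c : Color} (h : ptOk p c) : ptOk (ptMv c p) c := by
  rcases p with b | ⟨i, v⟩
  · exact h
  · exact i.2.2.1 v c h

theorem ptPr_mv {n : ℕ} {p : Pt n} {c : Color} (h : ptOk p c) :
    ptPr (ptMv c p) = (Bn n).act c (ptPr p) := by
  rcases p with b | ⟨i, v⟩
  · exact h.elim
  · exact towerProj_act cube (dN n) i.1 c v

/-- The whole space. -/
abbrev Mt : Type := Σ n, Pt n

/-- The level of a point. -/
def mLev (x : Mt) : ℕ := x.1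

/-- The edges of the space. -/
def mE (x y : Mt) : Prop :=
  ∃ (n : ℕ) (p : Pt n) (c : Color), ptOk p c ∧ x = ⟨n, p⟩ ∧ y = ⟨n, ptMv c p⟩

/-- The spokes of the space. -/
def mS (x y : Mt) : Prop :=
  ∃ (n : ℕ) (p : Pt n), x = ⟨n, p⟩ ∧ y = ⟨n, Sum.inl (ptPr p)⟩

/-- Spoke lengths. -/
def mT (n : ℕ) : ℝ := (tN n : ℝ)

/-- Level bounds. -/
def mD (n : ℕ) : ℝ := 2 * ((rN n : ℝ) + (tN n : ℝ))

theorem mT_one_le (n : ℕ) : 1 ≤ mT n := by
  unfold mT tN
  push_cast
  have : (0 : ℝ) ≤ n := Nat.cast_nonneg n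
  linarith

theorem mD_one_le (n : ℕ) : 1 ≤ mD n := by
  unfold mD rN tN
  push_cast
  have : (0 : ℝ) ≤ n := Nat.cast_nonneg n
  have h2 : (0 : ℝ) ≤ 1900 * ((n : ℝ) + 8) ^ 2 := by positivity
  linarith

theorem mT_nonneg (n : ℕ) : 0 ≤ mT n := zero_le_one.trans (mT_one_le n)
theorem mD_nonneg (n : ℕ) : 0 ≤ mD n := zero_le_one.trans (mD_one_le n)

instance : MetricSpace Mt :=
  aMetric (lev := mLev) (E := mE) (S := mS) (t := mT) (D := mD) mT_one_le mD_one_le

theorem mt_dist_def (x y : Mt) : dist x y = aDist mLev mE mS mT mD x y := rfl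

theorem one_le_dist_mt {x y : Mt} (h : x ≠ y) : 1 ≤ dist x y :=
  one_le_aDist mT_one_le mD_one_le h

theorem dist_edge {n : ℕ} {p : Pt n} {c : Color} (h : ptOk p c) :
    dist (⟨n, p⟩ : Mt) ⟨n, ptMv c p⟩ ≤ 1 :=
  aDist_edge mT_nonneg mD_nonneg ⟨n, p, c, h, rfl, rfl⟩

theorem dist_spoke {n : ℕ} (p : Pt n) :
    dist (⟨n, p⟩ : Mt) ⟨n, Sum.inl (ptPr p)⟩ ≤ mT n :=
  aDist_spoke mT_nonneg mD_nonneg ⟨n, p, rfl, rfl⟩

theorem dist_mt_bound (x y : Mt) : dist x y ≤ mD (mLev x) + mD (mLev y) :=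
  aDist_bound mT_nonneg mD_nonneg x y

/-- A point of the tower. -/
def towerPoint : (n : ℕ) → (tower (cube : CG Color) n).V
  | 0 => (0 : Color → ZMod 2)
  | n + 1 => (towerPoint n, 0)

/-- The base point of the space. -/
def basePt : Mt := ⟨0, Sum.inl (towerPoint _)⟩

/-- The function on the space given by a function on level `n`. -/
def lvl (n : ℕ) (g : Pt n → ℝ) : Mt → ℝ :=
  Function.extend (Sigma.mk n) g 0

theorem lvl_self (n : ℕ) (g : Pt n → ℝ) (p : Pt n) : lvl n g ⟨n, p⟩ = g p :=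
  sigma_mk_injective.extend_apply g 0 p

theorem lvl_ne {n m : ℕ} (g : Pt n → ℝ) (h : m ≠ n) (p : Pt m) : lvl n g ⟨m, p⟩ = 0 := by
  refine Function.extend_apply' _ _ _ ?_
  rintro ⟨q, hq⟩
  exact h (congrArg Sigma.fst hq).symm

section Lvl

variable {n : ℕ} {g : Pt n → ℝ} {L : ℝ}

theorem lvl_lip (hL : 0 < L) (hB : ∀ p, |g p| ≤ L * (mD n / 2))
    (hE : ∀ p c, ptOk p c → |g p - g (ptMv c p)| ≤ L)
    (hS : ∀ p, |g p - g (Sum.inl (ptPr p))| ≤ L * mT n) (x y : Mt) :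
    |lvl n g x - lvl n g y| ≤ L * dist x y := by
  refine lip_of_edge (lev := mLev) (E := mE) (S := mS) (t := mT) (D := mD) mT_nonneg mD_nonneg
    ?_ ?_ hL (n := n) ?_ ?_ ?_ ?_ x y
  · rintro _ _ ⟨m, p, c, -, rfl, rfl⟩
    rfl
  · rintro _ _ ⟨m, p, rfl, rfl⟩
    rfl
  · rintro ⟨m, p⟩ hm
    exact lvl_ne g hm p
  · rintro ⟨m, p⟩
    by_cases hm : m = n
    · subst hm
      rw [lvl_self]
      exact hB p
    · rw [lvl_ne g hm p, abs_zero]
      have := mD_nonneg n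
      positivity
  · rintro _ _ ⟨m, p, c, hc, rfl, rfl⟩
    by_cases hm : m = n
    · subst hm
      rw [lvl_self, lvl_self]
      exact hE p c hc
    · rw [lvl_ne g hm, lvl_ne g hm, sub_zero, abs_zero]
      exact hL.le
  · rintro _ _ ⟨m, p, rfl, rfl⟩
    by_cases hm : m = n
    · subst hm
      rw [lvl_self, lvl_self]
      exact hS p
    · rw [lvl_ne g hm, lvl_ne g hm, sub_zero, abs_zero]
      have := mT_nonneg m
      exact mul_nonneg hL.le this

/-- An element of `Lip₀` from a function on a level. -/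
def toLip (hn : 1 ≤ n) (g : Pt n → ℝ) (L : ℝ) (hL : 0 < L)
    (hB : ∀ p, |g p| ≤ L * (mD n / 2))
    (hE : ∀ p c, ptOk p c → |g p - g (ptMv c p)| ≤ L)
    (hS : ∀ p, |g p - g (Sum.inl (ptPr p))| ≤ L * mT n) : Lip0 Mt basePt :=
  ⟨lvl n g, lvl_ne g (by omega) _, L, lvl_lip hL hB hE hS⟩

theorem toLip_fn (hn : 1 ≤ n) (g : Pt n → ℝ) (L : ℝ) (hL : 0 < L)
    (hB : ∀ p, |g p| ≤ L * (mD n / 2))
    (hE : ∀ p c, ptOk p c → |g p - g (ptMv c p)| ≤ L)
    (hS : ∀ p, |g p - g (Sum.inl (ptPr p))| ≤ L * mT n) :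
    (toLip hn g L hL hB hE hS).fn = lvl n g := rfl

/-- A bound on the norm of an element that comes from a function on a level. -/
theorem norm_le_of_lvl {F : Lip0 Mt basePt} (hF : F.fn = lvl n g) (hL : 0 < L)
    (hB : ∀ p, |g p| ≤ L * (mD n / 2))
    (hE : ∀ p c, ptOk p c → |g p - g (ptMv c p)| ≤ L)
    (hS : ∀ p, |g p - g (Sum.inl (ptPr p))| ≤ L * mT n) : ‖F‖ ≤ L :=
  Lip0.norm_le F hL.le fun x y => by
    rw [hF]
    exact lvl_lip hL hB hE hS x y

end Lvl

/-- The partial graph given by a component. -/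
abbrev compReader {n : ℕ} (i : Comp n) : Reader (Bn n) where
  S := (Gn n i.1).V
  ok := i.2.1
  mv := (Gn n i.1).act
  pr := towerProj cube (dN n) i.1
  ok_mv := fun {x c} h => i.2.2.1 x c h
  mv_mv := (Gn n i.1).act_act
  pr_mv := fun {x c} _ => towerProj_act cube (dN n) i.1 c x

/-- The special points of level `n`: hubs and points of the components in `J`. -/
def inSp {n : ℕ} (J : Set (Comp n)) : Pt n → Prop
  | Sum.inl _ => True
  | Sum.inr ⟨i, _⟩ => i ∈ J

theorem inSp_mv {n : ℕ} {J : Set (Comp n)} {p : Pt n} (c : Color) (h : inSp J p) :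
    inSp J (ptMv c p) := by
  rcases p with b | ⟨i, v⟩
  · trivial
  · exact h

theorem inSp_mv_iff {n : ℕ} {J : Set (Comp n)} {p : Pt n} (c : Color) :
    inSp J (ptMv c p) ↔ inSp J p := by
  refine ⟨fun h => ?_, inSp_mv c⟩
  have := inSp_mv c h
  rwa [ptMv_mv] at this

/-- The partial graph of the special points. -/
abbrev spReader {n : ℕ} (J : Set (Comp n)) : Reader (Bn n) where
  S := {p : Pt n // inSp J p}
  ok := fun x c => ptOk x.1 c
  mv := fun c x => ⟨ptMv c x.1, inSp_mv c x.2⟩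
  pr := fun x => ptPr x.1
  ok_mv := fun {x c} h => ptOk_mv (p := x.1) h
  mv_mv := fun c x => Subtype.ext (ptMv_mv c x.1)
  pr_mv := fun {x c} h => ptPr_mv (p := x.1) h

end

end Vale.Agent.Lib.P090
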