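import Vale.Agent.Lib.P090.Space

/-!
# The test functions at one level
-/

set_option linter.unusedSectionVars false
set_option linter.unusedVariables false

namespace Vale.Agent.Lib.P090

noncomputable section

open Finset

/-- A small real number inequality used for all the edge estimates. -/
theorem pair_bound {s1 s2 φ1 φ2 ε : ℝ} (hs1 : |s1| ≤ 1) (hs2 : |s2| ≤ 1) (h0 : 0 ≤ ε)
    (hφ : |φ1 - φ2| ≤ ε) (hor : s1 = s2 ∨ φ1 = 0 ∨ φ2 = 0) :
    |s1 * φ1 - s2 * φ2| ≤ ε := by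
  rcases hor with rfl | h | h
  · rw [← mul_sub, abs_mul]
    calc |s1| * |φ1 - φ2| ≤ 1 * |φ1 - φ2| := mul_le_mul_of_nonneg_right hs1 (abs_nonneg _)
      _ ≤ ε := by rw [one_mul]; exact hφ
  · subst h
    rw [mul_zero, zero_sub, abs_neg, abs_mul]
    rw [zero_sub, abs_neg] at hφ
    calc |s2| * |φ2| ≤ 1 * |φ2| := mul_le_mul_of_nonneg_right hs2 (abs_nonneg _)
      _ ≤ ε := by rw [one_mul]; exact hφ
  · subst h
    rw [mul_zero, sub_zero, abs_mul]
    rw [sub_zero] at hφ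
    calc |s1| * |φ1| ≤ 1 * |φ1| := mul_le_mul_of_nonneg_right hs1 (abs_nonneg _)
      _ ≤ ε := by rw [one_mul]; exact hφ

theorem mT_eq (n : ℕ) : mT n = (n : ℝ) + 8 := by
  unfold mT tN; push_cast; ring

theorem rN_eq (n : ℕ) : (rN n : ℝ) = 1900 * (mT n) ^ 2 := by
  rw [mT_eq]; unfold rN; push_cast; ring

theorem mD_half (n : ℕ) : mD n / 2 = (rN n : ℝ) + mT n := by
  unfold mD mT; ring

theorem mT_ge (n : ℕ) : 8 ≤ mT n := by
  rw [mT_eq]
  have : (0 : ℝ) ≤ n := Nat.cast_nonneg n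
  linarith

theorem rN_pos (n : ℕ) : 0 < rN n := by
  unfold rN; positivity

theorem rN_real_pos (n : ℕ) : (0 : ℝ) < rN n := by exact_mod_cast rN_pos n

theorem mT_pos (n : ℕ) : 0 < mT n := lt_of_lt_of_le (by norm_num) (mT_ge n)

theorem mT_le_rN (n : ℕ) : mT n ≤ rN n := by
  rw [rN_eq]
  nlinarith [mT_ge n]

theorem inv_r_le_inv_t (n : ℕ) : 1 / (rN n : ℝ) ≤ 1 / mT n :=
  one_div_le_one_div_of_le (mT_pos n) (mT_le_rN n)

theorem one_le_rN (n : ℕ) : (1 : ℝ) ≤ rN n := by exact_mod_cast rN_pos n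

section Test

variable {n : ℕ} (J : Set (Comp n)) (i0 : Comp n)

/-- The labels: classes of valid pairs under coupled moves. -/
abbrev Lab : Type := Quot (PStep (compReader i0) (spReader J) (rN n))

/-- The label of a pair. -/
def lab (z : (Gn n i0.1).V) (x : {p : Pt n // inSp J p}) : Lab J i0 := Quot.mk _ (z, x)

/-- The type map on the component. -/
abbrev zPr (z : (Gn n i0.1).V) : (Bn n).V := towerProj cube (dN n) i0.1 z

/-- The bump function at level `n`. -/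
abbrev phiL (n : ℕ) (a b : (Bn n).V) : ℝ := phi (Bn n) (rN n) a b

open Classical in
/-- The test function attached to a point `z` and a function on the labels. -/
def Fg (z : (Gn n i0.1).V) (s : Lab J i0 → ℝ) (p : Pt n) : ℝ :=
  if h : inSp J p then s (lab J i0 z ⟨p, h⟩) * phiL n (zPr i0 z) (ptPr p) else 0

variable {J i0}

theorem Fg_of_mem {z : (Gn n i0.1).V} {s : Lab J i0 → ℝ} {p : Pt n} (h : inSp J p) :
    Fg J i0 z s p = s (lab J i0 z ⟨p, h⟩) * phiL n (zPr i0 z) (ptPr p) := dif_pos h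

theorem Fg_of_not_mem {z : (Gn n i0.1).V} {s : Lab J i0 → ℝ} {p : Pt n} (h : ¬ inSp J p) :
    Fg J i0 z s p = 0 := dif_neg h

theorem abs_Fg_le {z : (Gn n i0.1).V} {s : Lab J i0 → ℝ} (hs : ∀ l, |s l| ≤ 1) (p : Pt n) :
    |Fg J i0 z s p| ≤ 1 := by
  by_cases h : inSp J p
  · rw [Fg_of_mem h, abs_mul, abs_of_nonneg (phi_nonneg _ _ _)]
    calc _ ≤ 1 * phiL n (zPr i0 z) (ptPr p) :=
          mul_le_mul_of_nonneg_right (hs _) (phi_nonneg _ _ _)
      _ ≤ 1 := by rw [one_mul]; exact phi_le_one _ _ _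
  · rw [Fg_of_not_mem h, abs_zero]
    exact zero_le_one

theorem Fg_edge_p {z : (Gn n i0.1).V} {s : Lab J i0 → ℝ} (hs : ∀ l, |s l| ≤ 1) {p : Pt n}
    {c : Color} (hc : ptOk p c) :
    |Fg J i0 z s p - Fg J i0 z s (ptMv c p)| ≤ 1 / (rN n : ℝ) := by
  have hr0 : (0 : ℝ) ≤ 1 / (rN n : ℝ) := by positivity
  by_cases h : inSp J p
  · have h' : inSp J (ptMv c p) := inSp_mv c h
    rw [Fg_of_mem h, Fg_of_mem h']
    have hpr : ptPr (ptMv c p) = (Bn n).act c (ptPr p) := ptPr_mv hc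
    refine pair_bound (hs _) (hs _) hr0 ?_ ?_
    · rw [hpr]
      exact phi_lip_right (rN_pos n) _ _ c
    · by_cases V1 : Vld (Bn n) (rN n) (zPr i0 z) (ptPr p)
      · by_cases V2 : Vld (Bn n) (rN n) (zPr i0 z) (ptPr (ptMv c p))
        · left
          congr 1
          refine Quot.sound ⟨V1, V2, Or.inr ⟨c, hc, rfl⟩⟩
        · right; right
          exact phi_eq_zero (rN_pos n) V2
      · right; left
        exact phi_eq_zero (rN_pos n) V1
  · have h' : ¬ inSp J (ptMv c p) := fun h2 => h ((inSp_mv_iff c).mp h2)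
    rw [Fg_of_not_mem h, Fg_of_not_mem h', sub_zero, abs_zero]
    exact hr0

theorem Fg_edge_z {z : (Gn n i0.1).V} {s : Lab J i0 → ℝ} (hs : ∀ l, |s l| ≤ 1) {c : Color}
    (hc : i0.2.1 z c) (p : Pt n) :
    |Fg J i0 z s p - Fg J i0 ((Gn n i0.1).act c z) s p| ≤ 1 / (rN n : ℝ) := by
  have hr0 : (0 : ℝ) ≤ 1 / (rN n : ℝ) := by positivity
  by_cases h : inSp J p
  · rw [Fg_of_mem h, Fg_of_mem h]
    have hpr : zPr i0 ((Gn n i0.1).act c z) = (Bn n).act c (zPr i0 z) :=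
      towerProj_act cube (dN n) i0.1 c z
    refine pair_bound (hs _) (hs _) hr0 ?_ ?_
    · rw [hpr]
      exact phi_lip_left (rN_pos n) _ _ c
    · by_cases V1 : Vld (Bn n) (rN n) (zPr i0 z) (ptPr p)
      · by_cases V2 : Vld (Bn n) (rN n) (zPr i0 ((Gn n i0.1).act c z)) (ptPr p)
        · left
          congr 1
          refine Quot.sound ⟨V1, V2, Or.inl ⟨c, hc, rfl⟩⟩
        · right; right
          exact phi_eq_zero (rN_pos n) V2
      · right; left
        exact phi_eq_zero (rN_pos n) V1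
  · rw [Fg_of_not_mem h, Fg_of_not_mem h, sub_zero, abs_zero]
    exact hr0

/-- The bound on spokes. -/
theorem Fg_spoke {z : (Gn n i0.1).V} {s : Lab J i0 → ℝ} (hs : ∀ l, |s l| ≤ 1) (p : Pt n) :
    |Fg J i0 z s p - Fg J i0 z s (Sum.inl (ptPr p))| ≤ 2 := by
  have h1 := abs_Fg_le (J := J) (z := z) hs p
  have h2 := abs_Fg_le (J := J) (z := z) hs (Sum.inl (ptPr p))
  have := abs_sub (Fg J i0 z s p) (Fg J i0 z s (Sum.inl (ptPr p)))
  linarith

variable (hn : 1 ≤ n)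

theorem two_div_t_pos (n : ℕ) : 0 < 2 / mT n := div_pos two_pos (mT_pos n)

theorem Fg_hB {z : (Gn n i0.1).V} {s : Lab J i0 → ℝ} (hs : ∀ l, |s l| ≤ 1) (p : Pt n) :
    |Fg J i0 z s p| ≤ 2 / mT n * (mD n / 2) := by
  refine (abs_Fg_le hs p).trans ?_
  rw [mD_half]
  have ht := mT_pos n
  have hr := rN_real_pos n
  rw [div_mul_eq_mul_div, le_div_iff₀ ht]
  nlinarith

theorem Fg_hE {z : (Gn n i0.1).V} {s : Lab J i0 → ℝ} (hs : ∀ l, |s l| ≤ 1) (p : Pt n) (c : Color)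
    (hc : ptOk p c) : |Fg J i0 z s p - Fg J i0 z s (ptMv c p)| ≤ 2 / mT n := by
  refine (Fg_edge_p hs hc).trans ((inv_r_le_inv_t n).trans ?_)
  exact div_le_div_of_nonneg_right one_le_two (mT_pos n).le

theorem Fg_hS {z : (Gn n i0.1).V} {s : Lab J i0 → ℝ} (hs : ∀ l, |s l| ≤ 1) (p : Pt n) :
    |Fg J i0 z s p - Fg J i0 z s (Sum.inl (ptPr p))| ≤ 2 / mT n * mT n := by
  rw [div_mul_cancel₀ _ (mT_pos n).ne']
  exact Fg_spoke hs p

open Classical in
/-- The indicator of a label. -/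
def indL (l : Lab J i0) : Lab J i0 → ℝ := fun m => if m = l then 1 else 0

theorem abs_indL_le (l m : Lab J i0) : |indL l m| ≤ 1 := by
  unfold indL
  split_ifs <;> simp

/-- The test function of a single label. -/
def bEl (z : (Gn n i0.1).V) (l : Lab J i0) : Lip0 Mt basePt :=
  toLip hn (Fg J i0 z (indL l)) (2 / mT n) (two_div_t_pos n) (Fg_hB (abs_indL_le l))
    (Fg_hE (abs_indL_le l)) (Fg_hS (abs_indL_le l))

theorem bEl_fn (z : (Gn n i0.1).V) (l : Lab J i0) :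
    (bEl hn z l).fn = lvl n (Fg J i0 z (indL l)) := rfl

theorem Lip0.fn_sum {ι : Type} (t : Finset ι) (b : ι → Lip0 Mt basePt) (s : ι → ℝ) (x : Mt) :
    (∑ l ∈ t, s l • b l).fn x = ∑ l ∈ t, s l * (b l).fn x := by
  have h := map_sum (evalLin (o := basePt) x) (fun l => s l • b l) t
  exact h

variable [Fintype (Lab J i0)]

theorem Fg_sum (z : (Gn n i0.1).V) (s : Lab J i0 → ℝ) (p : Pt n) :
    ∑ l, s l * Fg J i0 z (indL l) p = Fg J i0 z s p := by
  classical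
  by_cases h : inSp J p
  · simp only [Fg_of_mem h, indL]
    have : ∀ l, s l * ((if lab J i0 z ⟨p, h⟩ = l then (1 : ℝ) else 0) *
        phiL n (zPr i0 z) (ptPr p)) =
        if lab J i0 z ⟨p, h⟩ = l then s l * phiL n (zPr i0 z) (ptPr p) else 0 := by
      intro l
      split_ifs <;> ring
    simp only [this]
    rw [sum_ite_eq]
    simp
  · simp [Fg_of_not_mem h]

theorem lvl_sum_eq (z : (Gn n i0.1).V) (s : Lab J i0 → ℝ) (x : Mt) :
    ∑ l, s l * lvl n (Fg J i0 z (indL l)) x = lvl n (Fg J i0 z s) x := by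
  obtain ⟨m, p⟩ := x
  by_cases hm : m = n
  · subst hm
    simp only [lvl_self]
    exact Fg_sum z s p
  · simp only [lvl_ne _ hm, mul_zero, sum_const_zero]

/-- The test function attached to `s`. -/
def fEl (z : (Gn n i0.1).V) (s : Lab J i0 → ℝ) : Lip0 Mt basePt := ∑ l, s l • bEl hn z l

theorem fEl_fn (z : (Gn n i0.1).V) (s : Lab J i0 → ℝ) :
    (fEl hn z s).fn = lvl n (Fg J i0 z s) := by
  funext x
  unfold fEl
  rw [Lip0.fn_sum]
  simp only [bEl_fn]
  exact lvl_sum_eq z s x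

theorem fEl_norm (z : (Gn n i0.1).V) {s : Lab J i0 → ℝ} (hs : ∀ l, |s l| ≤ 1) :
    ‖fEl hn z s‖ ≤ 2 / mT n :=
  norm_le_of_lvl (fEl_fn hn z s) (two_div_t_pos n) (Fg_hB hs) (Fg_hE hs) (Fg_hS hs)

theorem lvl_sub (g1 g2 : Pt n → ℝ) (x : Mt) :
    lvl n g1 x - lvl n g2 x = lvl n (fun p => g1 p - g2 p) x := by
  obtain ⟨m, p⟩ := x
  by_cases hm : m = n
  · subst hm
    simp only [lvl_self]
  · simp only [lvl_ne _ hm, sub_zero]

theorem fEl_sub_fn (z z' : (Gn n i0.1).V) (s : Lab J i0 → ℝ) :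
    (fEl hn z s - fEl hn z' s).fn = lvl n (fun p => Fg J i0 z s p - Fg J i0 z' s p) := by
  funext x
  rw [Lip0.fn_sub, fEl_fn, fEl_fn, lvl_sub]

/-- The difference of test functions along a kept edge has small norm. -/
theorem fEl_sub_norm {z : (Gn n i0.1).V} {c : Color} (hc : i0.2.1 z c) {s : Lab J i0 → ℝ}
    (hs : ∀ l, |s l| ≤ 1) :
    ‖fEl hn z s - fEl hn ((Gn n i0.1).act c z) s‖ ≤ 2 / (rN n : ℝ) := by
  have hr := rN_real_pos n
  have h1 : ∀ p, |Fg J i0 z s p - Fg J i0 ((Gn n i0.1).act c z) s p| ≤ 1 / (rN n : ℝ) :=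
    fun p => Fg_edge_z hs hc p
  have htwo : 2 / (rN n : ℝ) = 1 / (rN n : ℝ) + 1 / (rN n : ℝ) := by ring
  have hpos : 0 < 1 / (rN n : ℝ) := by positivity
  refine norm_le_of_lvl (fEl_sub_fn hn z _ s) (by positivity) ?_ ?_ ?_
  · intro p
    refine (h1 p).trans ?_
    rw [mD_half]
    have ht := mT_pos n
    have h3 : (1 : ℝ) ≤ rN n + mT n := by linarith [one_le_rN n]
    rw [htwo]
    nlinarith
  · intro p c' _
    have h2 := h1 p
    have h3 := h1 (ptMv c' p)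
    have h4 := abs_sub (Fg J i0 z s p - Fg J i0 ((Gn n i0.1).act c z) s p)
      (Fg J i0 z s (ptMv c' p) - Fg J i0 ((Gn n i0.1).act c z) s (ptMv c' p))
    rw [htwo]
    linarith
  · intro p
    have h2 := h1 p
    have h3 := h1 (Sum.inl (ptPr p))
    have h4 := abs_sub (Fg J i0 z s p - Fg J i0 ((Gn n i0.1).act c z) s p)
      (Fg J i0 z s (Sum.inl (ptPr p)) - Fg J i0 ((Gn n i0.1).act c z) s (Sum.inl (ptPr p)))
    have ht := mT_ge n
    have h5 : 2 / (rN n : ℝ) ≤ 2 / (rN n : ℝ) * mT n := by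
      have : (0 : ℝ) < 2 / (rN n : ℝ) := by positivity
      nlinarith
    refine le_trans ?_ h5
    rw [htwo]
    linarith

/-- The values at hubs of the difference of test functions are small. -/
theorem fEl_sub_hub {z : (Gn n i0.1).V} {c : Color} (hc : i0.2.1 z c) {s : Lab J i0 → ℝ}
    (hs : ∀ l, |s l| ≤ 1) (b : (Bn n).V) :
    |(fEl hn z s - fEl hn ((Gn n i0.1).act c z) s).fn ⟨n, Sum.inl b⟩| ≤ 1 / (rN n : ℝ) := by
  rw [fEl_sub_fn, lvl_self]
  exact Fg_edge_z hs hc _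

end Test

end

end Vale.Agent.Lib.P090
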