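import Mathlib

/-!
# Reduced words over an alphabet of involutions
-/

set_option linter.unusedSectionVars false
set_option linter.unusedSimpArgs false

namespace Vale.Agent.Lib.P090

variable {C : Type} [DecidableEq C]

/-- A word is reduced when consecutive letters differ. -/
abbrev Red (w : List C) : Prop := w.IsChain (· ≠ ·)

/-- Left multiplication of a reduced word by a letter. -/
def redCons (c : C) : List C → List C
  | [] => [c]
  | d :: t => if d = c then t else c :: d :: t

theorem redCons_cons (c d : C) (t : List C) :
    redCons c (d :: t) = if d = c then t else c :: d :: t := rfl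

theorem red_cons_iff {c d : C} {t : List C} : Red (c :: d :: t) ↔ c ≠ d ∧ Red (d :: t) :=
  List.isChain_cons_cons

theorem Red.tail' {c : C} {t : List C} (h : Red (c :: t)) : Red t :=
  List.IsChain.tail h

theorem red_redCons (c : C) {w : List C} (h : Red w) : Red (redCons c w) := by
  cases w with
  | nil => exact List.isChain_singleton c
  | cons d t =>
    rw [redCons_cons]
    split_ifs with hd
    · exact Red.tail' h
    · exact red_cons_iff.mpr ⟨fun h' => hd h'.symm, h⟩

theorem redCons_redCons (c : C) {w : List C} (h : Red w) : redCons c (redCons c w) = w := by
  cases w with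
  | nil => simp [redCons]
  | cons d t =>
    by_cases hd : d = c
    · subst hd
      cases t with
      | nil => simp [redCons]
      | cons e t' =>
        have he : e ≠ d := fun h' => (red_cons_iff.mp h).1 h'.symm
        simp [redCons, he]
    · simp [redCons, hd]

theorem length_redCons_le (c : C) (w : List C) : (redCons c w).length ≤ w.length + 1 := by
  cases w with
  | nil => simp [redCons]
  | cons d t =>
    rw [redCons_cons]
    split_ifs <;> simp <;> omega

/-- The action of a word on a reduced word. -/
def wAct (a b : List C) : List C := a.foldr redCons b

/-- The reduced form of a word. -/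
def nf (l : List C) : List C := wAct l []

theorem wAct_nil (b : List C) : wAct [] b = b := rfl
theorem wAct_cons (c : C) (a b : List C) : wAct (c :: a) b = redCons c (wAct a b) := rfl
theorem nf_nil : nf ([] : List C) = [] := rfl
theorem nf_cons (c : C) (a : List C) : nf (c :: a) = redCons c (nf a) := rfl

theorem red_wAct (a : List C) {b : List C} (hb : Red b) : Red (wAct a b) := by
  induction a with
  | nil => exact hb
  | cons c a ih => exact red_redCons c ih

theorem red_nf (a : List C) : Red (nf a) := red_wAct a List.isChain_nil

theorem nf_append (a b : List C) : nf (a ++ b) = wAct a (nf b) := by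
  induction a with
  | nil => rfl
  | cons c a ih => simp only [List.cons_append, nf_cons, wAct_cons, ih]

theorem nf_of_red {w : List C} (h : Red w) : nf w = w := by
  induction w with
  | nil => rfl
  | cons c t ih =>
    rw [nf_cons, ih (Red.tail' h)]
    cases t with
    | nil => rfl
    | cons d t' =>
      have hcd : d ≠ c := fun h' => (red_cons_iff.mp h).1 h'.symm
      simp [redCons, hcd]

theorem wAct_redCons (c : C) (y : List C) {w : List C} (hw : Red w) :
    wAct (redCons c y) w = redCons c (wAct y w) := by
  cases y with
  | nil => rfl
  | cons d t =>
    by_cases hd : d = c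
    · subst hd
      rw [redCons_cons, if_pos rfl, wAct_cons, redCons_redCons _ (red_wAct t hw)]
    · simp [redCons, hd, wAct_cons]

theorem wAct_nf (l : List C) {w : List C} (hw : Red w) : wAct (nf l) w = wAct l w := by
  induction l with
  | nil => rfl
  | cons c l ih => rw [nf_cons, wAct_redCons c _ hw, ih, wAct_cons]

/-- Congruence on the right. -/
theorem nf_append_congr {a b : List C} (h : nf a = nf b) (e : List C) :
    nf (a ++ e) = nf (b ++ e) := by
  rw [nf_append, nf_append, ← wAct_nf a (red_nf e), ← wAct_nf b (red_nf e), h]

/-- Right multiplication of a reduced word by a letter. -/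
def pushRed (P : List C) (c : C) : List C := (redCons c P.reverse).reverse

theorem red_reverse {w : List C} (h : Red w) : Red w.reverse := by
  rw [Red, List.isChain_reverse]
  exact h.imp (fun _ _ hab hba => hab hba.symm)

theorem red_pushRed {P : List C} (h : Red P) (c : C) : Red (pushRed P c) :=
  red_reverse (red_redCons c (red_reverse h))

/-- The basic dichotomy for right multiplication. -/
theorem pushRed_cases (P : List C) (c : C) :
    pushRed P c = P ++ [c] ∨ P = pushRed P c ++ [c] := by
  unfold pushRed
  cases h : P.reverse with
  | nil =>
    left
    have : P = [] := by simpa using h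
    subst this
    rfl
  | cons d t =>
    have hP : P = t.reverse ++ [d] := by
      have := congrArg List.reverse h
      simpa using this
    by_cases hd : d = c
    · subst hd
      right
      simp [redCons, hP]
    · left
      simp [redCons, hd, hP]

/-- There is at most one letter whose right multiplication shortens a word. -/
theorem exists_last_letter (P : List C) (c1 : C) :
    ∃ c0 : C, ∀ c, c ≠ c0 → pushRed P c = P ++ [c] := by
  cases h : P.reverse with
  | nil =>
    have hP : P = [] := by simpa using h
    subst hP
    exact ⟨c1, fun c _ => rfl⟩
  | cons d t =>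
    refine ⟨d, fun c hc => ?_⟩
    have hP : P = t.reverse ++ [d] := by
      have := congrArg List.reverse h
      simpa using this
    simp [pushRed, h, redCons, Ne.symm hc, hP]

theorem length_pushRed_le (P : List C) (c : C) : (pushRed P c).length ≤ P.length + 1 := by
  unfold pushRed
  rw [List.length_reverse]
  have := length_redCons_le c P.reverse
  rwa [List.length_reverse] at this

theorem nf_pushRed (b : List C) (d : C) : nf (pushRed b d) = nf (b ++ [d]) := by
  rcases pushRed_cases b d with h | h
  · rw [h]
  · conv_rhs => rw [h]
    rw [List.append_assoc, nf_append (pushRed b d) ([d] ++ [d])]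
    have : nf ([d] ++ [d]) = [] := by simp [nf, wAct, redCons]
    rw [this]
    rfl

/-- Invariance of the normal form when a letter moves across the middle. -/
theorem nf_pushRed_redCons {P ρ : List C} (hρ : Red ρ) (c : C) :
    nf (pushRed P c ++ redCons c ρ) = nf (P ++ ρ) := by
  have hρ' := red_redCons c hρ
  rcases pushRed_cases P c with h | h
  · rw [h, List.append_assoc, nf_append, nf_append P ρ]
    have : nf ([c] ++ redCons c ρ) = ρ := by
      change redCons c (nf (redCons c ρ)) = ρ
      rw [nf_of_red hρ', redCons_redCons c hρ]
    rw [this, nf_of_red hρ]
  · conv_rhs => rw [h]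
    rw [List.append_assoc, nf_append, nf_append (pushRed P c) ([c] ++ ρ)]
    have : nf ([c] ++ ρ) = redCons c ρ := by
      change redCons c (nf ρ) = redCons c ρ
      rw [nf_of_red hρ]
    rw [this, nf_of_red hρ']

/-- Invariance of the normal form under right multiplication on both sides. -/
theorem nf_push_push {P ρ ρ0 Q : List C} (h : nf (P ++ ρ) = nf (ρ0 ++ Q)) (d : C) :
    nf (P ++ pushRed ρ d) = nf (ρ0 ++ pushRed Q d) := by
  rw [nf_append, nf_append ρ0, nf_pushRed, nf_pushRed, ← nf_append, ← nf_append,
    ← List.append_assoc, ← List.append_assoc]
  exact nf_append_congr h [d]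

/-- The cancellation lemma. -/
theorem cancel_lemma {a b : List C} (ha : Red a) (hb : Red b) :
    ∃ a' e b', a = a' ++ e ∧ b = e.reverse ++ b' ∧ nf (a ++ b) = a' ++ b' := by
  induction a with
  | nil => exact ⟨[], [], b, rfl, rfl, nf_of_red hb⟩
  | cons c a1 ih =>
    obtain ⟨a', e, b', h1, h2, h3⟩ := ih (Red.tail' ha)
    have hnf : nf ((c :: a1) ++ b) = redCons c (a' ++ b') := by
      rw [List.cons_append, nf_cons, h3]
    cases a' with
    | nil =>
      simp only [List.nil_append] at h1 h3 hnf
      cases b' with
      | nil =>
        refine ⟨[c], e, [], ?_, ?_, ?_⟩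
        · simp [h1]
        · exact h2
        · simpa [redCons] using hnf
      | cons d b'' =>
        by_cases hd : d = c
        · subst hd
          refine ⟨[], d :: e, b'', ?_, ?_, ?_⟩
          · simp [h1]
          · simp [h2]
          · simpa [redCons] using hnf
        · refine ⟨[c], e, d :: b'', ?_, ?_, ?_⟩
          · simp [h1]
          · exact h2
          · simpa [redCons, hd] using hnf
    | cons d a'' =>
      have hcd : d ≠ c := by
        rw [h1] at ha
        exact fun h' => (red_cons_iff.mp ha).1 h'.symm
      refine ⟨c :: d :: a'', e, b', ?_, h2, ?_⟩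
      · simp [h1]
      · simpa [redCons, hcd] using hnf

/-! ### Walks -/

/-- Walk along a word, for a family of moves. -/
def walk {S : Type} (f : C → S → S) (x : S) (w : List C) : S := w.foldl (fun y c => f c y) x

@[simp] theorem walk_nil {S : Type} (f : C → S → S) (x : S) : walk f x [] = x := rfl
@[simp] theorem walk_cons {S : Type} (f : C → S → S) (x : S) (c : C) (w : List C) :
    walk f x (c :: w) = walk f (f c x) w := rfl
theorem walk_append {S : Type} (f : C → S → S) (x : S) (a b : List C) :
    walk f x (a ++ b) = walk f (walk f x a) b := by
  simp [walk, List.foldl_append]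
@[simp] theorem walk_singleton {S : Type} (f : C → S → S) (x : S) (c : C) :
    walk f x [c] = f c x := rfl

section Invol
variable {S : Type} {f : C → S → S} (hf : ∀ c x, f c (f c x) = x)
include hf

theorem walk_redCons (x : S) (c : C) (w : List C) :
    walk f x (redCons c w) = walk f x (c :: w) := by
  cases w with
  | nil => rfl
  | cons d t =>
    by_cases hd : d = c
    · subst hd
      simp [redCons, hf]
    · simp [redCons, hd]

theorem walk_nf (x : S) (l : List C) : walk f x (nf l) = walk f x l := by
  induction l generalizing x with
  | nil => rfl
  | cons c l ih =>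
    rw [nf_cons, walk_redCons hf, walk_cons, walk_cons, ih]

theorem walk_pushRed (x : S) (P : List C) (c : C) :
    walk f x (pushRed P c) = f c (walk f x P) := by
  rcases pushRed_cases P c with h | h
  · rw [h, walk_append, walk_singleton]
  · conv_rhs => rw [h, walk_append, walk_singleton, hf]

theorem walk_reverse (x : S) (w : List C) : walk f (walk f x w) w.reverse = x := by
  induction w generalizing x with
  | nil => rfl
  | cons c t ih =>
    rw [List.reverse_cons, walk_append, walk_singleton, walk_cons, ih, hf]

end Invol

/-- A word can be read from `x` when every step of its walk is allowed. -/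
def Reads {S : Type} (ok : S → C → Prop) (mv : C → S → S) : S → List C → Prop
  | _, [] => True
  | x, c :: w => ok x c ∧ Reads ok mv (mv c x) w

theorem reads_append {S : Type} {ok : S → C → Prop} {mv : C → S → S} {x : S} {a b : List C} :
    Reads ok mv x (a ++ b) ↔ Reads ok mv x a ∧ Reads ok mv (walk mv x a) b := by
  induction a generalizing x with
  | nil => simp [Reads]
  | cons c a ih =>
    simp only [List.cons_append, Reads, walk_cons, ih, and_assoc]

end Vale.Agent.Lib.P090
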